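import Vale.Agent.P108.Cmb.Events

/-!
# P108, combinatorial section: Dirichlet points

A first-scale event of scale `r` has, close to its far end, a point all of whose inward windows are
`θ`-sparse.
-/

open Set
open scoped Classical

namespace P108C

variable {c : ℝ} {B T : Set ℤ} {b : ℤ} {r : ℕ}

/-- a point near the right end of `[u, w]` whose left windows inside `[u, w)` are `θ`-sparse -/
theorem exists_sparse_left_point {θ M : ℝ} (hθ : 0 < θ) {u w : ℤ} (huw : u ≤ w)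
    (hM : (ms T u w : ℝ) ≤ M) :
    ∃ b' : ℤ, u ≤ b' ∧ b' ≤ w ∧ θ * ((w - b' : ℤ) : ℝ) ≤ M ∧
      ∀ y : ℕ, 1 ≤ y → u ≤ b' - y → (ms T (b' - y) b' : ℝ) < θ * y := by
  by_contra hcon
  push Not at hcon
  have hM0 : 0 ≤ M := le_trans (by positivity) hM
  set K : ℕ := ⌊M / θ⌋₊ with hK
  have hK1 : (K : ℝ) ≤ M / θ := Nat.floor_le (by positivity)
  have hK2 : M / θ < K + 1 := Nat.lt_floor_add_one _
  rw [le_div_iff₀ hθ] at hK1
  rw [div_lt_iff₀ hθ] at hK2
  by_cases hbig : w - u ≤ K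
  · obtain ⟨y, hy1, hy2, -⟩ := hcon u le_rfl huw (by
      have : ((w - u : ℤ) : ℝ) ≤ K := by exact_mod_cast hbig
      nlinarith)
    omega
  push Not at hbig
  set S : Set ℤ := T ∩ Ici u with hS
  have hdl : ∀ i, w - K ≤ i → i < w + 1 → i ∈ dl θ (w - u).toNat S := by
    intro i h1 h2
    obtain ⟨y, hy1, hy2, hy3⟩ := hcon i (by omega) (by omega) (by
      have : ((w - i : ℤ) : ℝ) ≤ K := by
        have : w - i ≤ (K : ℤ) := by omega
        exact_mod_cast this
      nlinarith)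
    refine ⟨y, hy1, by omega, hy3.trans ?_⟩
    refine Nat.cast_le.2 (ms_le_of fun j h3 _ h5 => ⟨h5, mem_Ici.2 (by omega)⟩)
  have h1 := count_dl hθ (w - u).toNat S (w - K - 1) (K + 1)
  have e1 : w - (K : ℤ) - 1 + 1 = w - K := by ring
  have e2 : w - (K : ℤ) + ((K + 1 : ℕ) : ℤ) = w + 1 := by push_cast; ring
  have e3 : w - (K : ℤ) - 1 + ((K + 1 : ℕ) : ℤ) = w := by push_cast; ring
  rw [e1, e2, e3] at h1
  have h2 : (ms (dl θ (w - u).toNat S) (w - K) (w + 1) : ℤ) = K + 1 := by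
    have h3 : ms (dl θ (w - u).toNat S) (w - K) (w + 1) = (Finset.Ico (w - (K : ℤ)) (w + 1)).card := by
      unfold ms
      congr 1
      refine Finset.filter_true_of_mem fun i hi => ?_
      rw [Finset.mem_Ico] at hi
      exact hdl i hi.1 hi.2
    rw [h3, Int.card_Ico]
    omega
  have h3 : (ms (dl θ (w - u).toNat S) (w - K) (w + 1) : ℝ) = K + 1 := by exact_mod_cast h2
  rw [h3] at h1
  have h4 : ms S (w - K - 1 - (w - u).toNat) w ≤ ms T u w := by
    have h5 : ms S (w - K - 1 - (w - u).toNat) w = ms S (w - K - 1 - (w - u).toNat) u + ms S u w :=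
      ms_add (by omega) huw
    have h6 : ms S (w - K - 1 - (w - u).toNat) u = 0 :=
      ms_eq_zero fun i _ h7 h8 => by
        have := mem_Ici.1 h8.2
        omega
    rw [h5, h6, zero_add]
    exact ms_mono inter_subset_left _ _
  have h5 : (ms S (w - K - 1 - (w - u).toNat) w : ℝ) ≤ ms T u w := Nat.cast_le.2 h4
  nlinarith

/-- a point near the left end of `[u, w]` whose right windows inside `[u, w)` are `θ`-sparse
(windows start at `b'`) -/
theorem exists_sparse_right_point {θ M : ℝ} (hθ : 0 < θ) {u w : ℤ} (huw : u ≤ w)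
    (hM : (ms T u w : ℝ) ≤ M) :
    ∃ b' : ℤ, u ≤ b' ∧ b' ≤ w ∧ θ * ((b' - u : ℤ) : ℝ) ≤ M ∧
      ∀ y : ℕ, 1 ≤ y → b' + y ≤ w → (ms T b' (b' + y) : ℝ) < θ * y := by
  by_contra hcon
  push Not at hcon
  have hM0 : 0 ≤ M := le_trans (by positivity) hM
  set K : ℕ := ⌊M / θ⌋₊ with hK
  have hK1 : (K : ℝ) ≤ M / θ := Nat.floor_le (by positivity)
  have hK2 : M / θ < K + 1 := Nat.lt_floor_add_one _
  rw [le_div_iff₀ hθ] at hK1
  rw [div_lt_iff₀ hθ] at hK2
  by_cases hbig : w - u ≤ K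
  · obtain ⟨y, hy1, hy2, -⟩ := hcon w huw le_rfl (by
      have : ((w - u : ℤ) : ℝ) ≤ K := by exact_mod_cast hbig
      nlinarith)
    omega
  push Not at hbig
  set S : Set ℤ := T ∩ Iio w with hS
  have hdr : ∀ i, u - 1 ≤ i → i < u + K → i ∈ dr θ (w - u).toNat S := by
    intro i h1 h2
    obtain ⟨y, hy1, hy2, hy3⟩ := hcon (i + 1) (by omega) (by omega) (by
      have : ((i + 1 - u : ℤ) : ℝ) ≤ K := by
        have : i + 1 - u ≤ (K : ℤ) := by omega
        exact_mod_cast this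
      nlinarith)
    refine ⟨y, hy1, by omega, hy3.trans ?_⟩
    refine Nat.cast_le.2 (ms_le_of fun j h3 h4 h5 => ⟨h5, mem_Iio.2 (by omega)⟩)
  have h1 := count_dr hθ (w - u).toNat S (u + K) (K + 1)
  have e1 : u + (K : ℤ) - ((K + 1 : ℕ) : ℤ) = u - 1 := by push_cast; ring
  have e2 : u - (1 : ℤ) + 1 = u := by ring
  rw [e1, e2] at h1
  have h2 : (ms (dr θ (w - u).toNat S) (u - 1) (u + K) : ℤ) = K + 1 := by
    have h3 : ms (dr θ (w - u).toNat S) (u - 1) (u + K) =
        (Finset.Ico (u - 1) (u + (K : ℤ))).card := by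
      unfold ms
      congr 1
      refine Finset.filter_true_of_mem fun i hi => ?_
      rw [Finset.mem_Ico] at hi
      exact hdr i hi.1 hi.2
    rw [h3, Int.card_Ico]
    omega
  have h3 : (ms (dr θ (w - u).toNat S) (u - 1) (u + K) : ℝ) = K + 1 := by exact_mod_cast h2
  rw [h3] at h1
  have h4 : ms S u (u + K + (w - u).toNat) ≤ ms T u w := by
    have h5 : ms S u (u + K + (w - u).toNat) = ms S u w + ms S w (u + K + (w - u).toNat) :=
      ms_add huw (by omega)
    have h6 : ms S w (u + K + (w - u).toNat) = 0 :=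
      ms_eq_zero fun i h7 _ h8 => by
        have := mem_Iio.1 h8.2
        omega
    rw [h5, h6, add_zero]
    exact ms_mono inter_subset_left _ _
  have h5 : (ms S u (u + K + (w - u).toNat) : ℝ) ≤ ms T u w := Nat.cast_le.2 h4
  nlinarith

/-- **Dirichlet point of a right event.** -/
theorem RightEv.exists_dirichlet (h : RightEv c B b r) {θ : ℝ} (hθ : 0 < θ) :
    ∃ b' : ℤ, b + 1 ≤ b' ∧ b' ≤ b + r ∧ θ * ((b + r - b' : ℤ) : ℝ) ≤ c * ((r : ℝ) - 1) ∧
      ∀ y : ℕ, 1 ≤ y → b + 1 ≤ b' - y →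
        (ms (Cl c r (B ∩ Ico (b + 1) (b + 1 + r))) (b' - y) b' : ℝ) < θ * y := by
  obtain ⟨h1, -, h3⟩ := h
  refine exists_sparse_left_point hθ (by omega) ?_
  rcases eq_or_lt_of_le h1 with hr | hr
  · rw [← hr, ms_eq_zero_of_le (by push_cast; omega)]
    simp
  · have h4 := h3 (r - 1) (by omega) (by omega)
    have e1 : b + 1 + ((r - 1 : ℕ) : ℤ) = b + r := by omega
    have e2 : ((r - 1 : ℕ) : ℝ) = (r : ℝ) - 1 := by
      rw [Nat.cast_sub h1]; simp
    rw [e1, e2] at h4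
    exact h4.le

/-- **Dirichlet point of a left event.** -/
theorem LeftEv.exists_dirichlet (h : LeftEv c B b r) {θ : ℝ} (hθ : 0 < θ) :
    ∃ b' : ℤ, b - (r - 1 : ℕ) ≤ b' ∧ b' ≤ b ∧
      θ * ((b' - (b - (r - 1 : ℕ)) : ℤ) : ℝ) ≤ c * ((r : ℝ) - 1) ∧
      ∀ y : ℕ, 1 ≤ y → b' + y ≤ b →
        (ms (Cl c r (B ∩ Ico (b - r) b)) b' (b' + y) : ℝ) < θ * y := by
  obtain ⟨h1, -, h3⟩ := h
  refine exists_sparse_right_point hθ (by omega) ?_
  rcases eq_or_lt_of_le h1 with hr | hr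
  · rw [← hr, ms_eq_zero_of_le (by simp)]
    simp
  · have h4 := h3 (r - 1) (by omega) (by omega)
    have e2 : ((r - 1 : ℕ) : ℝ) = (r : ℝ) - 1 := by
      rw [Nat.cast_sub h1]; simp
    rw [e2] at h4
    exact h4.le

end P108C
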