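import Mathlib

/-!
# P108, combinatorial section: two-sided density closure of sets of integers

`X` is `n`-closed (threshold `c`) if no `b ∉ X` has a window `[h₁, h₂) ∋ b` of length `≤ n` in
which both `X ∩ [h₁, b)` and `X ∩ (b, h₂)` have at least `c (h₂ - h₁)` elements. `Cl c n B` is the
least `n`-closed set containing `B`.
-/

open Set
open scoped Classical

namespace P108C

/-- number of elements of `X` in `[a, b)` -/
noncomputable def ms (X : Set ℤ) (a b : ℤ) : ℕ := ((Finset.Ico a b).filter (fun i => i ∈ X)).card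

/-- closedness under the two-sided density rule with windows of length at most `n` -/
def NClosed (c : ℝ) (n : ℕ) (X : Set ℤ) : Prop :=
  ∀ b : ℤ, b ∉ X → ∀ h₁ h₂ : ℤ, h₁ ≤ b → b < h₂ → h₂ - h₁ ≤ n →
    ¬ (c * ((h₂ - h₁ : ℤ) : ℝ) ≤ ms X h₁ b ∧ c * ((h₂ - h₁ : ℤ) : ℝ) ≤ ms X (b + 1) h₂)

/-- the least `n`-closed set containing `B` -/
def Cl (c : ℝ) (n : ℕ) (B : Set ℤ) : Set ℤ := ⋂₀ {X | B ⊆ X ∧ NClosed c n X}

variable {c : ℝ} {n m : ℕ} {X Y B : Set ℤ} {a b : ℤ}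

theorem ms_mono (h : X ⊆ Y) (a b : ℤ) : ms X a b ≤ ms Y a b := by
  unfold ms
  exact Finset.card_le_card (Finset.monotone_filter_right _ (fun i _ hi => h hi))

theorem ms_mono' {a a' b b' : ℤ} (ha : a' ≤ a) (hb : b ≤ b') : ms X a b ≤ ms X a' b' := by
  unfold ms
  apply Finset.card_le_card
  intro i hi
  simp only [Finset.mem_filter, Finset.mem_Ico] at hi ⊢
  exact ⟨⟨ha.trans hi.1.1, lt_of_lt_of_le hi.1.2 hb⟩, hi.2⟩

theorem ms_le (a b : ℤ) : (ms X a b : ℤ) ≤ max (b - a) 0 := by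
  unfold ms
  have h := Finset.card_filter_le (Finset.Ico a b) (fun i => i ∈ X)
  rw [Int.card_Ico] at h
  have h2 : (((Finset.Ico a b).filter (fun i => i ∈ X)).card : ℤ) ≤ ((b - a).toNat : ℤ) := by
    exact_mod_cast h
  rwa [Int.toNat_eq_max] at h2

theorem ms_eq_zero_of_le (h : b ≤ a) : ms X a b = 0 := by
  unfold ms
  rw [Finset.Ico_eq_empty (not_lt.2 h)]
  rfl

theorem ms_eq_zero (h : ∀ i, a ≤ i → i < b → i ∉ X) : ms X a b = 0 := by
  unfold ms
  rw [Finset.card_eq_zero, Finset.filter_eq_empty_iff]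
  intro i hi
  rw [Finset.mem_Ico] at hi
  exact h i hi.1 hi.2

theorem ms_add {a b d : ℤ} (h1 : a ≤ b) (h2 : b ≤ d) : ms X a d = ms X a b + ms X b d := by
  unfold ms
  rw [← Finset.card_union_of_disjoint]
  · congr 1
    ext i
    simp only [Finset.mem_filter, Finset.mem_Ico, Finset.mem_union]
    constructor
    · rintro ⟨⟨h3, h4⟩, h5⟩
      rcases lt_or_ge i b with h | h
      · exact Or.inl ⟨⟨h3, h⟩, h5⟩
      · exact Or.inr ⟨⟨h, h4⟩, h5⟩
    · rintro (⟨⟨h3, h4⟩, h5⟩ | ⟨⟨h3, h4⟩, h5⟩)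
      · exact ⟨⟨h3, lt_of_lt_of_le h4 h2⟩, h5⟩
      · exact ⟨⟨h1.trans h3, h4⟩, h5⟩
  · rw [Finset.disjoint_left]
    intro i hi hi'
    simp only [Finset.mem_filter, Finset.mem_Ico] at hi hi'
    exact absurd hi.1.2 (not_lt.2 hi'.1.1)

/-- the mass only depends on the set inside the interval -/
theorem ms_congr {a b : ℤ} (h : ∀ i, a ≤ i → i < b → (i ∈ X ↔ i ∈ Y)) : ms X a b = ms Y a b := by
  unfold ms
  congr 1
  apply Finset.filter_congr
  intro i hi
  rw [Finset.mem_Ico] at hi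
  exact h i hi.1 hi.2

theorem ms_le_of {a b : ℤ} (h : ∀ i, a ≤ i → i < b → i ∈ X → i ∈ Y) : ms X a b ≤ ms Y a b := by
  unfold ms
  apply Finset.card_le_card
  intro i hi
  simp only [Finset.mem_filter, Finset.mem_Ico] at hi ⊢
  exact ⟨hi.1, h i hi.1.1 hi.1.2 hi.2⟩

theorem ms_union_le (a b : ℤ) : ms (X ∪ Y) a b ≤ ms X a b + ms Y a b := by
  unfold ms
  rw [← Finset.card_union_add_card_inter]
  refine le_trans ?_ (Nat.le_add_right _ _)
  apply Finset.card_le_card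
  intro i hi
  simp only [Finset.mem_filter, Finset.mem_union, mem_union] at hi ⊢
  rcases hi.2 with h | h
  · exact Or.inl ⟨hi.1, h⟩
  · exact Or.inr ⟨hi.1, h⟩

theorem subset_Cl (c : ℝ) (n : ℕ) (B : Set ℤ) : B ⊆ Cl c n B := subset_sInter fun _ h => h.1

theorem Cl_min (h : B ⊆ X) (hX : NClosed c n X) : Cl c n B ⊆ X := sInter_subset_of_mem ⟨h, hX⟩

theorem nclosed_Cl (c : ℝ) (n : ℕ) (B : Set ℤ) : NClosed c n (Cl c n B) := by
  intro b hb h₁ h₂ hb1 hb2 hn hh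
  unfold Cl at hb
  rw [mem_sInter] at hb
  push Not at hb
  obtain ⟨X, ⟨hBX, hX⟩, hbX⟩ := hb
  have hsub : Cl c n B ⊆ X := Cl_min hBX hX
  refine hX b hbX h₁ h₂ hb1 hb2 hn ⟨hh.1.trans ?_, hh.2.trans ?_⟩
  · exact_mod_cast ms_mono hsub _ _
  · exact_mod_cast ms_mono hsub _ _

theorem Cl_mono (h : B ⊆ X) : Cl c n B ⊆ Cl c n X :=
  Cl_min (h.trans (subset_Cl c n X)) (nclosed_Cl c n X)

theorem NClosed.anti (h : NClosed c m X) (hnm : n ≤ m) : NClosed c n X := by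
  intro b hb h₁ h₂ hb1 hb2 hn
  exact h b hb h₁ h₂ hb1 hb2 (hn.trans (by exact_mod_cast hnm))

theorem Cl_mono_n (hnm : n ≤ m) : Cl c n B ⊆ Cl c m B :=
  Cl_min (subset_Cl c m B) ((nclosed_Cl c m B).anti hnm)

theorem Cl_eq_self (h : NClosed c n X) : Cl c n X = X :=
  Subset.antisymm (Cl_min Subset.rfl h) (subset_Cl c n X)

theorem nclosed_Iio (hc : 0 < c) (b : ℤ) : NClosed c n (Iio b) := by
  intro d hd h₁ h₂ h3 h4 _ hh
  rw [mem_Iio, not_lt] at hd
  have h5 : ms (Iio b) (d + 1) h₂ = 0 := by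
    refine ms_eq_zero fun i hi _ => ?_
    rw [mem_Iio]
    omega
  have h6 := hh.2
  rw [h5] at h6
  have h7 : (0 : ℝ) < ((h₂ - h₁ : ℤ) : ℝ) := by
    have : (0 : ℤ) < h₂ - h₁ := by omega
    exact_mod_cast this
  have := mul_pos hc h7
  push_cast at h6 this
  linarith

theorem nclosed_Ici (hc : 0 < c) (b : ℤ) : NClosed c n (Ici b) := by
  intro d hd h₁ h₂ h3 h4 _ hh
  rw [mem_Ici, not_le] at hd
  have h5 : ms (Ici b) h₁ d = 0 := by
    refine ms_eq_zero fun i _ hi => ?_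
    rw [mem_Ici]
    omega
  have h6 := hh.1
  rw [h5] at h6
  have h7 : (0 : ℝ) < ((h₂ - h₁ : ℤ) : ℝ) := by
    have : (0 : ℤ) < h₂ - h₁ := by omega
    exact_mod_cast this
  have := mul_pos hc h7
  push_cast at h6 this
  linarith

theorem NClosed.inter (hX : NClosed c n X) (hY : NClosed c n Y) : NClosed c n (X ∩ Y) := by
  intro b hb h₁ h₂ h3 h4 hn hh
  rw [mem_inter_iff, not_and_or] at hb
  rcases hb with hb | hb
  · refine hX b hb h₁ h₂ h3 h4 hn ⟨hh.1.trans ?_, hh.2.trans ?_⟩ <;>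
    exact_mod_cast ms_mono inter_subset_left _ _
  · refine hY b hb h₁ h₂ h3 h4 hn ⟨hh.1.trans ?_, hh.2.trans ?_⟩ <;>
    exact_mod_cast ms_mono inter_subset_right _ _

theorem nclosed_Ico (hc : 0 < c) (a b : ℤ) : NClosed c n (Ico a b) := by
  rw [← Ici_inter_Iio]
  exact (nclosed_Ici hc a).inter (nclosed_Iio hc b)

theorem Cl_Iio_subset (hc : 0 < c) (h : B ⊆ Iio b) : Cl c n B ⊆ Iio b := Cl_min h (nclosed_Iio hc b)

theorem Cl_Ici_subset (hc : 0 < c) (h : B ⊆ Ici b) : Cl c n B ⊆ Ici b := Cl_min h (nclosed_Ici hc b)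

theorem Cl_Ico_subset (hc : 0 < c) (h : B ⊆ Ico a b) : Cl c n B ⊆ Ico a b :=
  Cl_min h (nclosed_Ico hc a b)

/-- a window with positive mass on both sides -/
theorem pos_of_window (hc : 0 < c) {h₁ h₂ d : ℤ} (h3 : h₁ ≤ d) (h4 : d < h₂) :
    0 < c * ((h₂ - h₁ : ℤ) : ℝ) := by
  have : (0 : ℤ) < h₂ - h₁ := by omega
  exact mul_pos hc (by exact_mod_cast this)

/-- windows longer than the ambient interval do not matter -/
theorem nclosed_of_subset (hc : 0 < c) (hX : X ⊆ Ico a b) (hab : b - a ≤ n) (h : NClosed c n X) :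
    NClosed c m X := by
  intro d hd h₁ h₂ h3 h4 _ hh
  have hpos := pos_of_window hc h3 h4
  rcases lt_or_ge d a with hda | hda
  · have h5 : ms X h₁ d = 0 := ms_eq_zero fun i _ hi hiX => by
      have := (hX hiX).1
      omega
    have h6 := hh.1
    rw [h5] at h6
    push_cast at h6 hpos
    linarith
  rcases lt_or_ge d b with hdb | hdb
  · have h5 : ms X h₁ d ≤ ms X (max h₁ a) d := by
      unfold ms
      apply Finset.card_le_card
      intro i hi
      simp only [Finset.mem_filter, Finset.mem_Ico] at hi ⊢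
      exact ⟨⟨max_le hi.1.1 (hX hi.2).1, hi.1.2⟩, hi.2⟩
    have h6 : ms X (d + 1) h₂ ≤ ms X (d + 1) (min h₂ b) := by
      unfold ms
      apply Finset.card_le_card
      intro i hi
      simp only [Finset.mem_filter, Finset.mem_Ico] at hi ⊢
      exact ⟨⟨hi.1.1, lt_min hi.1.2 (hX hi.2).2⟩, hi.2⟩
    have h7 : c * ((min h₂ b - max h₁ a : ℤ) : ℝ) ≤ c * ((h₂ - h₁ : ℤ) : ℝ) := by
      refine mul_le_mul_of_nonneg_left ?_ hc.le
      have : min h₂ b - max h₁ a ≤ h₂ - h₁ := by omega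
      exact_mod_cast this
    refine h d hd (max h₁ a) (min h₂ b) (by omega) (by omega) (by omega) ⟨?_, ?_⟩
    · exact h7.trans (hh.1.trans (by exact_mod_cast h5))
    · exact h7.trans (hh.2.trans (by exact_mod_cast h6))
  · have h5 : ms X (d + 1) h₂ = 0 := ms_eq_zero fun i hi _ hiX => by
      have := (hX hiX).2
      omega
    have h6 := hh.2
    rw [h5] at h6
    push_cast at h6 hpos
    linarith

theorem Cl_eq_of_subset (hc : 0 < c) (hB : B ⊆ Ico a b) (hn : b - a ≤ n) (hm : b - a ≤ m) :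
    Cl c n B = Cl c m B := by
  apply Subset.antisymm
  · exact Cl_min (subset_Cl c m B)
      (nclosed_of_subset hc (Cl_Ico_subset hc hB) hm (nclosed_Cl c m B))
  · exact Cl_min (subset_Cl c n B)
      (nclosed_of_subset hc (Cl_Ico_subset hc hB) hn (nclosed_Cl c n B))

/-! ### (C1) no straddling -/

/-- if the left closure is sparse seen from `b`, then adding everything on the right of `b`
changes nothing on the left -/
theorem nclosed_union_Ioi (hY : NClosed c n Y) (hYb : Y ⊆ Iio b)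
    (hsp : ∀ r : ℕ, 1 ≤ r → r ≤ n → (ms Y (b - r) b : ℝ) < c * r) (hc : 0 < c) :
    NClosed c n (Y ∪ Ioi b) := by
  intro d hd h₁ h₂ h3 h4 hn hh
  rw [mem_union, not_or, mem_Ioi, not_lt] at hd
  obtain ⟨hdY, hdb⟩ := hd
  rcases le_or_gt h₂ b with h5 | h5
  · -- the window does not reach `b`
    refine hY d hdY h₁ h₂ h3 h4 hn ⟨hh.1.trans ?_, hh.2.trans ?_⟩
    · have : ms (Y ∪ Ioi b) h₁ d ≤ ms Y h₁ d := ms_le_of fun i _ hi hiY => by
        rcases hiY with h | h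
        · exact h
        · rw [mem_Ioi] at h; omega
      exact_mod_cast this
    · have : ms (Y ∪ Ioi b) (d + 1) h₂ ≤ ms Y (d + 1) h₂ := ms_le_of fun i _ hi hiY => by
        rcases hiY with h | h
        · exact h
        · rw [mem_Ioi] at h; omega
      exact_mod_cast this
  · rcases eq_or_lt_of_le (h3.trans hdb) with h6 | h6
    · -- `h₁ = d = b`: no mass on the left
      have h7 : ms (Y ∪ Ioi b) h₁ d = 0 := ms_eq_zero_of_le (by omega)
      have hpos := pos_of_window hc h3 h4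
      have h8 := hh.1
      rw [h7] at h8
      push_cast at h8 hpos
      linarith
    · have h7 : ms (Y ∪ Ioi b) h₁ d ≤ ms Y h₁ b := by
        refine (ms_mono' le_rfl hdb).trans (ms_le_of fun i _ hi hiY => ?_)
        rcases hiY with h | h
        · exact h
        · rw [mem_Ioi] at h; omega
      obtain ⟨r, hr⟩ : ∃ r : ℕ, (r : ℤ) = b - h₁ := ⟨(b - h₁).toNat, by omega⟩
      have h8 := hsp r (by omega) (by omega)
      rw [hr, sub_sub_cancel] at h8
      have h9 : c * (r : ℝ) ≤ c * ((h₂ - h₁ : ℤ) : ℝ) := by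
        refine mul_le_mul_of_nonneg_left ?_ hc.le
        have : (r : ℤ) ≤ h₂ - h₁ := by omega
        exact_mod_cast this
      have h10 : (ms (Y ∪ Ioi b) h₁ d : ℝ) ≤ ms Y h₁ b := by exact_mod_cast h7
      linarith [hh.1]

/-- (C1) -/
theorem notMem_Cl_of_sparse (hc : 0 < c) (hb : b ∉ B)
    (hsp : ∀ r : ℕ, 1 ≤ r → r ≤ n → (ms (Cl c n (B ∩ Iio b)) (b - r) b : ℝ) < c * r) :
    b ∉ Cl c n B ∧ Cl c n B ∩ Iio b = Cl c n (B ∩ Iio b) := by
  set Y := Cl c n (B ∩ Iio b) with hY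
  have h1 : Y ⊆ Iio b := Cl_Iio_subset hc inter_subset_right
  have h2 : Cl c n B ⊆ Y ∪ Ioi b := by
    refine Cl_min ?_ (nclosed_union_Ioi (nclosed_Cl c n _) h1 hsp hc)
    intro i hi
    rcases lt_trichotomy i b with h | h | h
    · exact Or.inl (subset_Cl _ _ _ ⟨hi, h⟩)
    · exact absurd (h ▸ hi) hb
    · exact Or.inr h
  refine ⟨fun h => ?_, Subset.antisymm ?_ ?_⟩
  · rcases h2 h with h | h
    · exact lt_irrefl b (mem_Iio.1 (h1 h))
    · exact lt_irrefl b (mem_Ioi.1 h)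
  · rintro i ⟨hi, hib⟩
    rcases h2 hi with h | h
    · exact h
    · exact absurd (mem_Ioi.1 h) (not_lt.2 (le_of_lt (mem_Iio.1 hib)))
  · exact subset_inter (Cl_mono inter_subset_left) h1

/-! ### (C2), (C3): swallowing -/

/-- one-sided swallowing: `T` on the right of `a'`, sparse seen from `a'` -/
theorem nclosed_Iio_union {T : Set ℤ} {a' : ℤ} (hc : 0 < c) (hT : NClosed c n T)
    (hsp : ∀ y : ℤ, a' < y → (ms T a' y : ℝ) < c * ((y - a' : ℤ) : ℝ)) :
    NClosed c n (Iio a' ∪ T) := by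
  intro d hd h₁ h₂ h3 h4 hn hh
  rw [mem_union, not_or, mem_Iio, not_lt] at hd
  obtain ⟨hda, hdT⟩ := hd
  rcases le_or_gt a' h₁ with h5 | h5
  · refine hT d hdT h₁ h₂ h3 h4 hn ⟨hh.1.trans ?_, hh.2.trans ?_⟩
    · have : ms (Iio a' ∪ T) h₁ d ≤ ms T h₁ d := ms_le_of fun i hi _ hiY => by
        rcases hiY with h | h
        · rw [mem_Iio] at h; omega
        · exact h
      exact_mod_cast this
    · have : ms (Iio a' ∪ T) (d + 1) h₂ ≤ ms T (d + 1) h₂ := ms_le_of fun i hi _ hiY => by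
        rcases hiY with h | h
        · rw [mem_Iio] at h; omega
        · exact h
      exact_mod_cast this
  · have h6 : ms (Iio a' ∪ T) (d + 1) h₂ ≤ ms T a' h₂ := by
      refine (ms_le_of fun i hi _ hiY => ?_).trans (ms_mono' (by omega) le_rfl)
      rcases hiY with h | h
      · rw [mem_Iio] at h; omega
      · exact h
    have h7 := hsp h₂ (by omega)
    have h8 : c * ((h₂ - a' : ℤ) : ℝ) ≤ c * ((h₂ - h₁ : ℤ) : ℝ) := by
      refine mul_le_mul_of_nonneg_left ?_ hc.le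
      have : h₂ - a' ≤ h₂ - h₁ := by omega
      exact_mod_cast this
    have h9 : (ms (Iio a' ∪ T) (d + 1) h₂ : ℝ) ≤ ms T a' h₂ := by exact_mod_cast h6
    linarith [hh.2]

/-- mirror image -/
theorem nclosed_union_Ici {T : Set ℤ} {a' : ℤ} (hc : 0 < c) (hT : NClosed c n T)
    (hsp : ∀ y : ℤ, y < a' → (ms T y a' : ℝ) < c * ((a' - y : ℤ) : ℝ)) :
    NClosed c n (T ∪ Ici a') := by
  intro d hd h₁ h₂ h3 h4 hn hh
  rw [mem_union, not_or, mem_Ici, not_le] at hd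
  obtain ⟨hdT, hda⟩ := hd
  rcases le_or_gt h₂ a' with h5 | h5
  · refine hT d hdT h₁ h₂ h3 h4 hn ⟨hh.1.trans ?_, hh.2.trans ?_⟩
    · have : ms (T ∪ Ici a') h₁ d ≤ ms T h₁ d := ms_le_of fun i _ hi hiY => by
        rcases hiY with h | h
        · exact h
        · rw [mem_Ici] at h; omega
      exact_mod_cast this
    · have : ms (T ∪ Ici a') (d + 1) h₂ ≤ ms T (d + 1) h₂ := ms_le_of fun i _ hi hiY => by
        rcases hiY with h | h
        · exact h
        · rw [mem_Ici] at h; omega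
      exact_mod_cast this
  · rcases eq_or_lt_of_le h3 with h6 | h6
    · have h7 : ms (T ∪ Ici a') h₁ d = 0 := ms_eq_zero_of_le (by omega)
      have hpos := pos_of_window hc h3 h4
      have h8 := hh.1
      rw [h7] at h8
      push_cast at h8 hpos
      linarith
    · have h6 : ms (T ∪ Ici a') h₁ d ≤ ms T h₁ a' := by
        refine (ms_le_of fun i _ hi hiY => ?_).trans (ms_mono' le_rfl hda.le)
        rcases hiY with h | h
        · exact h
        · rw [mem_Ici] at h; omega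
      have h7 := hsp h₁ (by omega)
      have h8 : c * ((a' - h₁ : ℤ) : ℝ) ≤ c * ((h₂ - h₁ : ℤ) : ℝ) := by
        refine mul_le_mul_of_nonneg_left ?_ hc.le
        have : a' - h₁ ≤ h₂ - h₁ := by omega
        exact_mod_cast this
      have h9 : (ms (T ∪ Ici a') h₁ d : ℝ) ≤ ms T h₁ a' := by exact_mod_cast h6
      linarith [hh.1]

theorem ms_Iio_le {a a' b : ℤ} (h : a ≤ a') : (ms (Iio a') a b : ℤ) ≤ a' - a := by
  have h1 : ms (Iio a') a b ≤ ((Finset.Ico a a').filter (fun i => i ∈ Iio a')).card := by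
    unfold ms
    apply Finset.card_le_card
    intro i hi
    simp only [Finset.mem_filter, Finset.mem_Ico, mem_Iio] at hi ⊢
    exact ⟨⟨hi.1.1, hi.2⟩, hi.2⟩
  have h2 := (h1.trans (Finset.card_filter_le _ _))
  rw [Int.card_Ico] at h2
  omega

theorem ms_Ici_le {a a' b : ℤ} (h : a' ≤ b) : (ms (Ici a') a b : ℤ) ≤ b - a' := by
  have h1 : ms (Ici a') a b ≤ ((Finset.Ico a' b).filter (fun i => i ∈ Ici a')).card := by
    unfold ms
    apply Finset.card_le_card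
    intro i hi
    simp only [Finset.mem_filter, Finset.mem_Ico, mem_Ici] at hi ⊢
    exact ⟨⟨hi.2, hi.1.2⟩, hi.2⟩
  have h2 := (h1.trans (Finset.card_filter_le _ _))
  rw [Int.card_Ico] at h2
  omega

/-- the swallowed zone on the right of `a` -/
theorem exists_swallow_right {T : Set ℤ} (hc : 0 < c) (hT : T ⊆ Ico a b) :
    ∃ a' : ℤ, a ≤ a' ∧ c * ((a' - a : ℤ) : ℝ) ≤ ms T a b ∧
      ∀ y : ℤ, a' < y → (ms T a' y : ℝ) < c * ((y - a' : ℤ) : ℝ) := by
  have hle : ∀ y : ℤ, ms T a y ≤ ms T a b := by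
    intro y
    unfold ms
    apply Finset.card_le_card
    intro i hi
    simp only [Finset.mem_filter, Finset.mem_Ico] at hi ⊢
    exact ⟨⟨hi.1.1, (hT hi.2).2⟩, hi.2⟩
  obtain ⟨M, hM⟩ := exists_nat_gt ((ms T a b : ℝ) / c)
  rw [div_lt_iff₀ hc] at hM
  set p : ℕ → Prop := fun y => c * (y : ℝ) ≤ ms T a (a + y) with hp
  have h0 : p 0 := by simp [hp]
  have hbd : ∀ y, p y → y ≤ M := by
    intro y hy
    by_contra hlt
    push Not at hlt
    have h1 : (ms T a (a + y) : ℝ) ≤ ms T a b := by exact_mod_cast hle _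
    have h2 : (M : ℝ) < y := by exact_mod_cast hlt
    have h3 : c * (M : ℝ) < c * y := by gcongr
    simp only [hp] at hy
    linarith
  set y₀ := Nat.findGreatest p M with hy₀
  have h1 : p y₀ := Nat.findGreatest_spec (Nat.zero_le _) h0
  have h2 : ∀ y, y₀ < y → ¬ p y := by
    intro y hy hpy
    exact absurd (Nat.le_findGreatest (hbd y hpy) hpy) (not_le.2 hy)
  refine ⟨a + y₀, by omega, ?_, ?_⟩
  · have h3 : (ms T a (a + y₀) : ℝ) ≤ ms T a b := by exact_mod_cast hle _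
    have h4 : ((a + (y₀ : ℤ) - a : ℤ) : ℝ) = y₀ := by push_cast; ring
    rw [h4]
    exact h1.trans h3
  · intro y hy
    obtain ⟨z, hz⟩ : ∃ z : ℕ, (z : ℤ) = y - a := ⟨(y - a).toNat, by omega⟩
    have h3 := h2 z (by omega)
    simp only [hp, not_le] at h3
    have h4 : a + (z : ℤ) = y := by omega
    rw [h4] at h3
    have h5 : ms T a y = ms T a (a + y₀) + ms T (a + y₀) y := ms_add (by omega) hy.le
    have h6 : ((y - (a + (y₀ : ℤ)) : ℤ) : ℝ) = z - y₀ := by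
      have : (y - (a + (y₀ : ℤ)) : ℤ) = z - y₀ := by omega
      rw [this]; push_cast; ring
    rw [h6]
    have h7 : (ms T a y : ℝ) = ms T a (a + y₀) + ms T (a + y₀) y := by exact_mod_cast h5
    have h8 : c * (y₀ : ℝ) ≤ ms T a (a + y₀) := h1
    linarith

/-- the swallowed zone on the left of `b` -/
theorem exists_swallow_left {T : Set ℤ} (hc : 0 < c) (hT : T ⊆ Ico a b) :
    ∃ b' : ℤ, b' ≤ b ∧ c * ((b - b' : ℤ) : ℝ) ≤ ms T a b ∧
      ∀ y : ℤ, y < b' → (ms T y b' : ℝ) < c * ((b' - y : ℤ) : ℝ) := by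
  have hle : ∀ y : ℤ, ms T y b ≤ ms T a b := by
    intro y
    unfold ms
    apply Finset.card_le_card
    intro i hi
    simp only [Finset.mem_filter, Finset.mem_Ico] at hi ⊢
    exact ⟨⟨(hT hi.2).1, hi.1.2⟩, hi.2⟩
  obtain ⟨M, hM⟩ := exists_nat_gt ((ms T a b : ℝ) / c)
  rw [div_lt_iff₀ hc] at hM
  set p : ℕ → Prop := fun y => c * (y : ℝ) ≤ ms T (b - y) b with hp
  have h0 : p 0 := by simp [hp]
  have hbd : ∀ y, p y → y ≤ M := by
    intro y hy
    by_contra hlt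
    push Not at hlt
    have h1 : (ms T (b - y) b : ℝ) ≤ ms T a b := by exact_mod_cast hle _
    have h2 : (M : ℝ) < y := by exact_mod_cast hlt
    have h3 : c * (M : ℝ) < c * y := by gcongr
    simp only [hp] at hy
    linarith
  set y₀ := Nat.findGreatest p M with hy₀
  have h1 : p y₀ := Nat.findGreatest_spec (Nat.zero_le _) h0
  have h2 : ∀ y, y₀ < y → ¬ p y := by
    intro y hy hpy
    exact absurd (Nat.le_findGreatest (hbd y hpy) hpy) (not_le.2 hy)
  refine ⟨b - y₀, by omega, ?_, ?_⟩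
  · have h3 : (ms T (b - y₀) b : ℝ) ≤ ms T a b := by exact_mod_cast hle _
    have h4 : ((b - (b - (y₀ : ℤ)) : ℤ) : ℝ) = y₀ := by push_cast; ring
    rw [h4]
    exact h1.trans h3
  · intro y hy
    obtain ⟨z, hz⟩ : ∃ z : ℕ, (z : ℤ) = b - y := ⟨(b - y).toNat, by omega⟩
    have h3 := h2 z (by omega)
    simp only [hp, not_le] at h3
    have h4 : b - (z : ℤ) = y := by omega
    rw [h4] at h3
    have h5 : ms T y b = ms T y (b - y₀) + ms T (b - y₀) b := ms_add hy.le (by omega)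
    have h6 : ((b - (y₀ : ℤ) - y : ℤ) : ℝ) = z - y₀ := by
      have : (b - (y₀ : ℤ) - y : ℤ) = z - y₀ := by omega
      rw [this]; push_cast; ring
    rw [h6]
    have h7 : (ms T y b : ℝ) = ms T y (b - y₀) + ms T (b - y₀) b := by exact_mod_cast h5
    have h8 : c * (y₀ : ℝ) ≤ ms T (b - y₀) b := h1
    linarith

/-- (C2) local visibility -/
theorem ms_Cl_Iio_le (hc : 0 < c) (a b : ℤ) :
    (ms (Cl c n (B ∩ Iio b)) a b : ℝ) ≤ (1 + 1 / c) * ms (Cl c n (B ∩ Ico a b)) a b := by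
  set T := Cl c n (B ∩ Ico a b) with hT
  have hTs : T ⊆ Ico a b := Cl_Ico_subset hc inter_subset_right
  obtain ⟨a', h1, h2, h3⟩ := exists_swallow_right hc hTs
  have h4 : NClosed c n (Iio a' ∪ T) := nclosed_Iio_union hc (nclosed_Cl c n _) h3
  have h5 : Cl c n (B ∩ Iio b) ⊆ Iio a' ∪ T := by
    refine Cl_min ?_ h4
    rintro i ⟨hi, hib⟩
    rcases lt_or_ge i a with h | h
    · exact Or.inl (mem_Iio.2 (h.trans_le h1))
    · exact Or.inr (subset_Cl _ _ _ ⟨hi, h, hib⟩)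
  have h6 : ms (Cl c n (B ∩ Iio b)) a b ≤ ms (Iio a') a b + ms T a b :=
    (ms_mono h5 a b).trans (ms_union_le a b)
  have h7 := ms_Iio_le (b := b) h1
  have h8 : (ms (Iio a') a b : ℝ) ≤ ((a' - a : ℤ) : ℝ) := by exact_mod_cast h7
  have h9 : (ms (Cl c n (B ∩ Iio b)) a b : ℝ) ≤ ms (Iio a') a b + ms T a b := by exact_mod_cast h6
  have h10 : ((a' - a : ℤ) : ℝ) ≤ (ms T a b : ℝ) / c := by
    rw [le_div_iff₀ hc]
    linarith
  have h11 : (1 + 1 / c) * (ms T a b : ℝ) = ms T a b + ms T a b / c := by ring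
  rw [h11]
  linarith

/-- (C2) mirror image -/
theorem ms_Cl_Ici_le (hc : 0 < c) (a b : ℤ) :
    (ms (Cl c n (B ∩ Ici a)) a b : ℝ) ≤ (1 + 1 / c) * ms (Cl c n (B ∩ Ico a b)) a b := by
  set T := Cl c n (B ∩ Ico a b) with hT
  have hTs : T ⊆ Ico a b := Cl_Ico_subset hc inter_subset_right
  obtain ⟨b', h1, h2, h3⟩ := exists_swallow_left hc hTs
  have h4 : NClosed c n (T ∪ Ici b') := nclosed_union_Ici hc (nclosed_Cl c n _) h3
  have h5 : Cl c n (B ∩ Ici a) ⊆ T ∪ Ici b' := by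
    refine Cl_min ?_ h4
    rintro i ⟨hi, hia⟩
    rcases lt_or_ge i b with h | h
    · exact Or.inl (subset_Cl _ _ _ ⟨hi, hia, h⟩)
    · exact Or.inr (mem_Ici.2 (h1.trans h))
  have h6 : ms (Cl c n (B ∩ Ici a)) a b ≤ ms T a b + ms (Ici b') a b :=
    (ms_mono h5 a b).trans (ms_union_le a b)
  have h7 := ms_Ici_le (a := a) h1
  have h8 : (ms (Ici b') a b : ℝ) ≤ ((b - b' : ℤ) : ℝ) := by exact_mod_cast h7
  have h9 : (ms (Cl c n (B ∩ Ici a)) a b : ℝ) ≤ ms T a b + ms (Ici b') a b := by exact_mod_cast h6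
  have h10 : ((b - b' : ℤ) : ℝ) ≤ (ms T a b : ℝ) / c := by
    rw [le_div_iff₀ hc]
    linarith
  have h11 : (1 + 1 / c) * (ms T a b : ℝ) = ms T a b + ms T a b / c := by ring
  rw [h11]
  linarith

/-- (C3) halving -/
theorem ms_Cl_Ico_le (hc : 0 < c) {a a' b : ℤ} (h1 : a ≤ a') (h2 : a' ≤ b) :
    (ms (Cl c n (B ∩ Ico a b)) a b : ℝ) ≤
      (1 + 1 / c) * (ms (Cl c n (B ∩ Ico a a')) a a' + ms (Cl c n (B ∩ Ico a' b)) a' b) := by
  set T₁ := Cl c n (B ∩ Ico a a') with hT₁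
  set T₂ := Cl c n (B ∩ Ico a' b) with hT₂
  have hs₁ : T₁ ⊆ Ico a a' := Cl_Ico_subset hc inter_subset_right
  have hs₂ : T₂ ⊆ Ico a' b := Cl_Ico_subset hc inter_subset_right
  obtain ⟨u, hu1, hu2, hu3⟩ := exists_swallow_left hc hs₁
  obtain ⟨v, hv1, hv2, hv3⟩ := exists_swallow_right hc hs₂
  have h4 : NClosed c n ((T₁ ∪ Ici u) ∩ (Iio v ∪ T₂)) :=
    (nclosed_union_Ici hc (nclosed_Cl c n _) hu3).inter
      (nclosed_Iio_union hc (nclosed_Cl c n _) hv3)
  have h5 : Cl c n (B ∩ Ico a b) ⊆ (T₁ ∪ Ici u) ∩ (Iio v ∪ T₂) := by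
    refine Cl_min ?_ h4
    rintro i ⟨hi, hia, hib⟩
    rcases lt_or_ge i a' with h | h
    · exact ⟨Or.inl (subset_Cl _ _ _ ⟨hi, hia, h⟩), Or.inl (mem_Iio.2 (h.trans_le hv1))⟩
    · exact ⟨Or.inr (mem_Ici.2 (hu1.trans h)), Or.inr (subset_Cl _ _ _ ⟨hi, h, hib⟩)⟩
  have h6 : ms (Cl c n (B ∩ Ico a b)) a b ≤ ms (T₁ ∪ Ici u) a a' + ms (Iio v ∪ T₂) a' b := by
    rw [ms_add h1 h2]
    exact Nat.add_le_add (ms_mono (h5.trans inter_subset_left) _ _)
      (ms_mono (h5.trans inter_subset_right) _ _)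
  have h7 : ms (T₁ ∪ Ici u) a a' ≤ ms T₁ a a' + ms (Ici u) a a' := ms_union_le _ _
  have h8 : ms (Iio v ∪ T₂) a' b ≤ ms (Iio v) a' b + ms T₂ a' b := ms_union_le _ _
  have h9 := ms_Ici_le (a := a) hu1
  have h10 := ms_Iio_le (b := b) hv1
  have h11 : (ms (Cl c n (B ∩ Ico a b)) a b : ℝ) ≤
      ms T₁ a a' + ((a' - u : ℤ) : ℝ) + (((v - a' : ℤ) : ℝ) + ms T₂ a' b) := by
    have : (ms (Cl c n (B ∩ Ico a b)) a b : ℤ) ≤
      ms T₁ a a' + (a' - u : ℤ) + ((v - a' : ℤ) + ms T₂ a' b) := by omega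
    exact_mod_cast this
  have h12 : ((a' - u : ℤ) : ℝ) ≤ (ms T₁ a a' : ℝ) / c := by
    rw [le_div_iff₀ hc]
    linarith
  have h13 : ((v - a' : ℤ) : ℝ) ≤ (ms T₂ a' b : ℝ) / c := by
    rw [le_div_iff₀ hc]
    linarith
  have h14 : (1 + 1 / c) * ((ms T₁ a a' : ℝ) + ms T₂ a' b) =
      ms T₁ a a' + ms T₁ a a' / c + (ms T₂ a' b / c + ms T₂ a' b) := by ring
  rw [h14]
  linarith

end P108C
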