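import Vale.Agent.P108.Cmb.Basic

/-!
# P108, combinatorial section: geometry of an all-scales closed set

(C5) a run of the closed set has sparse surroundings; (E) mass of a window is at most the length of
the longest run plus `2 c` times the length of the window.
-/

open Set
open scoped Classical

namespace P108C

variable {c : ℝ} {n m : ℕ} {X Y B : Set ℤ} {a b : ℤ}

theorem ms_eq_length {a b : ℤ} (hab : a ≤ b) (h : ∀ i, a ≤ i → i < b → i ∈ X) :
    (ms X a b : ℤ) = b - a := by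
  have h1 : ms X a b = (Finset.Ico a b).card := by
    unfold ms
    congr 1
    refine Finset.filter_true_of_mem fun i hi => ?_
    rw [Finset.mem_Ico] at hi
    exact h i hi.1 hi.2
  rw [h1, Int.card_Ico]
  omega

theorem ms_single (h : a ∈ X) : ms X a (a + 1) = 1 := by
  have := ms_eq_length (X := X) (a := a) (b := a + 1) (by omega) (fun i h1 h2 => by
    have : i = a := by omega
    rw [this]; exact h)
  omega

theorem ms_single_not (h : a ∉ X) : ms X a (a + 1) = 0 :=
  ms_eq_zero fun i h1 h2 h3 => by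
    have : i = a := by omega
    exact h (this ▸ h3)

/-- (C5) right: a run `[q - m, q)` of a closed set followed by `q ∉ X` -/
theorem sparse_right_of_run (hc : 0 < c) (hc3 : c ≤ 1 / 3) (hX : ∀ n, NClosed c n X) {q : ℤ}
    (hq : q ∉ X) {m : ℕ} (hrun : ∀ i, q - m ≤ i → i < q → i ∈ X) {y : ℕ} (hy : 1 ≤ y)
    (hym : c * y ≤ (1 - c) * m) : (ms X q (q + y) : ℝ) < 2 * c * y := by
  have hy1 : (1 : ℝ) ≤ y := by exact_mod_cast hy
  have h0 : ms X q (q + y) = ms X (q + 1) (q + y) := by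
    rw [ms_add (X := X) (a := q) (b := q + 1) (d := q + y) (by omega) (by omega),
      ms_single_not hq, zero_add]
  rcases eq_or_lt_of_le hy with hy' | hy'
  · have h1 : ms X (q + 1) (q + y) = 0 := ms_eq_zero_of_le (by omega)
    rw [h0, h1]
    push_cast
    positivity
  set l : ℕ := ⌈c * y / (1 - c)⌉₊ with hl
  have h1c : 0 < 1 - c := by linarith
  have h1 : c * y / (1 - c) ≤ l := Nat.le_ceil _
  have h2 : (l : ℝ) < c * y / (1 - c) + 1 := Nat.ceil_lt_add_one (by positivity)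
  have hlm : l ≤ m := by
    rw [hl, Nat.ceil_le, div_le_iff₀ h1c]
    linarith
  have h3 := ms_eq_length (X := X) (a := q - l) (b := q) (by omega)
    (fun i h4 h5 => hrun i (by omega) h5)
  have h4 := hX (l + y) q hq (q - l) (q + y) (by omega) (by omega) (by push_cast; omega)
  rw [not_and] at h4
  have e1 : ((q + y - (q - l) : ℤ) : ℝ) = l + y := by push_cast; ring
  rw [e1] at h4
  have h5 : c * (l + y : ℝ) ≤ ms X (q - l) q := by
    have e2 : (ms X (q - l) q : ℝ) = l := by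
      have : (ms X (q - l) q : ℤ) = l := by rw [h3]; ring
      exact_mod_cast this
    rw [e2]
    rw [div_le_iff₀ h1c] at h1
    nlinarith
  have h6 := h4 h5
  push Not at h6
  rw [h0]
  refine h6.trans_le ?_
  have hy2 : (2 : ℝ) ≤ y := by exact_mod_cast hy'
  have h7 : c * y / (1 - c) ≤ (3 / 2) * (c * y) := by
    rw [div_le_iff₀ h1c]
    have : 0 ≤ c * y := by positivity
    nlinarith
  have h8 : (l : ℝ) ≤ (1 / 2) * y + 1 := by
    have : c * y ≤ (1 / 3) * y := by nlinarith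
    linarith
  nlinarith

/-- (C5) left -/
theorem sparse_left_of_run (hc : 0 < c) (hc3 : c ≤ 1 / 3) (hX : ∀ n, NClosed c n X) {p : ℤ}
    (hp : p - 1 ∉ X) {m : ℕ} (hrun : ∀ i, p ≤ i → i < p + m → i ∈ X) {y : ℕ} (hy : 1 ≤ y)
    (hym : c * y ≤ (1 - c) * m) : (ms X (p - y) p : ℝ) < 2 * c * y := by
  have hy1 : (1 : ℝ) ≤ y := by exact_mod_cast hy
  have h0 : ms X (p - y) p = ms X (p - y) (p - 1) := by
    rw [ms_add (X := X) (a := p - y) (b := p - 1) (d := p) (by omega) (by omega)]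
    have : ms X (p - 1) p = 0 := by
      have := ms_single_not hp
      rwa [sub_add_cancel] at this
    rw [this, add_zero]
  rcases eq_or_lt_of_le hy with hy' | hy'
  · have h1 : ms X (p - y) (p - 1) = 0 := ms_eq_zero_of_le (by omega)
    rw [h0, h1]
    push_cast
    positivity
  set l : ℕ := ⌈c * y / (1 - c)⌉₊ with hl
  have h1c : 0 < 1 - c := by linarith
  have h1 : c * y / (1 - c) ≤ l := Nat.le_ceil _
  have h2 : (l : ℝ) < c * y / (1 - c) + 1 := Nat.ceil_lt_add_one (by positivity)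
  have hlm : l ≤ m := by
    rw [hl, Nat.ceil_le, div_le_iff₀ h1c]
    linarith
  have h3 := ms_eq_length (X := X) (a := p) (b := p + l) (by omega)
    (fun i h4 h5 => hrun i h4 (by omega))
  have h4 := hX (l + y) (p - 1) hp (p - y) (p + l) (by omega) (by omega) (by push_cast; omega)
  rw [not_and'] at h4
  have e1 : ((p + l - (p - y) : ℤ) : ℝ) = l + y := by push_cast; ring
  rw [e1, sub_add_cancel] at h4
  have h5 : c * (l + y : ℝ) ≤ ms X p (p + l) := by
    have e2 : (ms X p (p + l) : ℝ) = l := by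
      have : (ms X p (p + l) : ℤ) = l := by rw [h3]; ring
      exact_mod_cast this
    rw [e2]
    rw [div_le_iff₀ h1c] at h1
    nlinarith
  have h6 := h4 h5
  push Not at h6
  rw [h0]
  refine h6.trans_le ?_
  have hy2 : (2 : ℝ) ≤ y := by exact_mod_cast hy'
  have h7 : c * y / (1 - c) ≤ (3 / 2) * (c * y) := by
    rw [div_le_iff₀ h1c]
    have : 0 ≤ c * y := by positivity
    nlinarith
  have h8 : (l : ℝ) ≤ (1 / 2) * y + 1 := by
    have : c * y ≤ (1 / 3) * y := by nlinarith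
    linarith
  nlinarith

/-- (E): in every window there is a run of `X` carrying all the mass but `2 c` times the length -/
theorem exists_run (hc : 0 < c) (hX : ∀ n, NClosed c n X) {u v : ℤ} (huv : u ≤ v) :
    ∃ p q : ℤ, u ≤ p ∧ p ≤ q ∧ q ≤ v ∧ (∀ i, p ≤ i → i < q → i ∈ X) ∧
      (ms X u v : ℝ) ≤ ((q - p : ℤ) : ℝ) + 2 * (c * ((v - u : ℤ) : ℝ)) := by
  set t : ℝ := c * ((v - u : ℤ) : ℝ) with ht
  rcases eq_or_lt_of_le huv with huv' | huv'
  · subst huv'
    refine ⟨u, u, le_rfl, le_rfl, le_rfl, fun i h1 h2 => absurd h2 (by omega), ?_⟩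
    rw [ms_eq_zero_of_le le_rfl, ht]
    simp
  have ht0 : 0 < t := by
    have : (0 : ℝ) < ((v - u : ℤ) : ℝ) := by exact_mod_cast (by omega : 0 < v - u)
    positivity
  by_cases hbig : (ms X u v : ℝ) < t
  · refine ⟨u, u, le_rfl, le_rfl, huv, fun i h1 h2 => absurd h2 (by omega), ?_⟩
    rw [sub_self]
    push_cast
    linarith
  push Not at hbig
  have hA : ((Finset.Icc u v).filter (fun s => t ≤ ms X u s)).Nonempty :=
    ⟨v, Finset.mem_filter.2 ⟨Finset.mem_Icc.2 ⟨huv, le_rfl⟩, hbig⟩⟩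
  have hB : ((Finset.Icc u v).filter (fun s => t ≤ ms X s v)).Nonempty :=
    ⟨u, Finset.mem_filter.2 ⟨Finset.mem_Icc.2 ⟨le_rfl, huv⟩, hbig⟩⟩
  set p0 := ((Finset.Icc u v).filter (fun s => t ≤ ms X u s)).min' hA with hp0
  set q0 := ((Finset.Icc u v).filter (fun s => t ≤ ms X s v)).max' hB with hq0
  have hpA := Finset.min'_mem _ hA
  have hqB := Finset.max'_mem _ hB
  rw [← hp0, Finset.mem_filter, Finset.mem_Icc] at hpA
  rw [← hq0, Finset.mem_filter, Finset.mem_Icc] at hqB
  obtain ⟨⟨hp1, hp2⟩, hp3⟩ := hpA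
  obtain ⟨⟨hq1, hq2⟩, hq3⟩ := hqB
  have hup : u < p0 := by
    rcases eq_or_lt_of_le hp1 with h | h
    · rw [← h, ms_eq_zero_of_le le_rfl] at hp3
      push_cast at hp3
      linarith
    · exact h
  have hqv : q0 < v := by
    rcases eq_or_lt_of_le hq2 with h | h
    · rw [h, ms_eq_zero_of_le le_rfl] at hq3
      push_cast at hq3
      linarith
    · exact h
  have hpmin : (ms X u (p0 - 1) : ℝ) < t := by
    by_contra h
    push Not at h
    have h1 : p0 - 1 ∈ (Finset.Icc u v).filter (fun s => t ≤ ms X u s) := by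
      rw [Finset.mem_filter, Finset.mem_Icc]
      exact ⟨⟨by omega, by omega⟩, h⟩
    have := Finset.min'_le _ (p0 - 1) h1
    rw [← hp0] at this
    omega
  have hqmax : (ms X (q0 + 1) v : ℝ) < t := by
    by_contra h
    push Not at h
    have h1 : q0 + 1 ∈ (Finset.Icc u v).filter (fun s => t ≤ ms X s v) := by
      rw [Finset.mem_filter, Finset.mem_Icc]
      exact ⟨⟨by omega, by omega⟩, h⟩
    have := Finset.le_max' _ (q0 + 1) h1
    rw [← hq0] at this
    omega
  have hpX : p0 - 1 ∈ X := by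
    by_contra h
    have h1 : ms X u p0 = ms X u (p0 - 1) + ms X (p0 - 1) p0 :=
      ms_add (X := X) (a := u) (b := p0 - 1) (d := p0) (by omega) (by omega)
    have h2 : ms X (p0 - 1) p0 = 0 := by
      have := ms_single_not h
      rwa [sub_add_cancel] at this
    rw [h1, h2, add_zero] at hp3
    linarith
  have hqX : q0 ∈ X := by
    by_contra h
    have h1 : ms X q0 v = ms X q0 (q0 + 1) + ms X (q0 + 1) v :=
      ms_add (X := X) (a := q0) (b := q0 + 1) (d := v) (by omega) (by omega)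
    rw [h1, ms_single_not h, zero_add] at hq3
    linarith
  rcases le_or_gt (p0 - 1) q0 with h | h
  · refine ⟨p0 - 1, q0 + 1, by omega, by omega, by omega, ?_, ?_⟩
    · intro i h1 h2
      by_cases e1 : i = p0 - 1
      · rw [e1]; exact hpX
      by_cases e2 : i = q0
      · rw [e2]; exact hqX
      by_contra hi
      refine hX (v - u).toNat i hi u v (by omega) (by omega) (by omega) ⟨?_, ?_⟩
      · exact hp3.trans (Nat.cast_le.2 (ms_mono' le_rfl (by omega)))
      · exact hq3.trans (Nat.cast_le.2 (ms_mono' (by omega) le_rfl))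
    · have h1 : ms X u v = ms X u (p0 - 1) + ms X (p0 - 1) (q0 + 1) + ms X (q0 + 1) v := by
        rw [← ms_add (X := X) (by omega : u ≤ p0 - 1) (by omega : p0 - 1 ≤ q0 + 1),
          ← ms_add (X := X) (by omega : u ≤ q0 + 1) (by omega : q0 + 1 ≤ v)]
      have h2 : (ms X (p0 - 1) (q0 + 1) : ℤ) ≤ q0 + 1 - (p0 - 1) := by
        have := ms_le (X := X) (p0 - 1) (q0 + 1)
        rwa [max_eq_left (by omega)] at this
      have h3 : (ms X (p0 - 1) (q0 + 1) : ℝ) ≤ ((q0 + 1 - (p0 - 1) : ℤ) : ℝ) := by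
        exact_mod_cast h2
      rw [h1]
      push_cast at h3 ⊢
      linarith
  · refine ⟨u, u, le_rfl, le_rfl, huv, fun i h1 h2 => absurd h2 (by omega), ?_⟩
    have h1 : ms X u v = ms X u (p0 - 1) + ms X (p0 - 1) v :=
      ms_add (X := X) (a := u) (b := p0 - 1) (d := v) (by omega) (by omega)
    have h2 : (ms X (p0 - 1) v : ℝ) ≤ ms X (q0 + 1) v :=
      Nat.cast_le.2 (ms_mono' (by omega) le_rfl)
    rw [sub_self, h1]
    push_cast
    linarith

/-- there is a longest run in every window -/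
theorem exists_max_run (X : Set ℤ) {u v : ℤ} (huv : u ≤ v) :
    ∃ p q : ℤ, u ≤ p ∧ p ≤ q ∧ q ≤ v ∧ (∀ i, p ≤ i → i < q → i ∈ X) ∧
      ∀ p' q' : ℤ, u ≤ p' → q' ≤ v → (∀ i, p' ≤ i → i < q' → i ∈ X) → q' - p' ≤ q - p := by
  have hfin : (((Finset.Icc u v) ×ˢ (Finset.Icc u v)).filter
      (fun z => z.1 ≤ z.2 ∧ ∀ i, z.1 ≤ i → i < z.2 → i ∈ X)).Nonempty :=
    ⟨(u, u), by
      rw [Finset.mem_filter, Finset.mem_product]
      exact ⟨⟨Finset.mem_Icc.2 ⟨le_rfl, huv⟩, Finset.mem_Icc.2 ⟨le_rfl, huv⟩⟩, le_rfl,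
        fun i h1 h2 => absurd h2 (by omega)⟩⟩
  obtain ⟨z, hz, hmax⟩ := Finset.exists_max_image _ (fun z : ℤ × ℤ => z.2 - z.1) hfin
  rw [Finset.mem_filter, Finset.mem_product, Finset.mem_Icc, Finset.mem_Icc] at hz
  obtain ⟨⟨⟨h1, h2⟩, h3, h4⟩, h5, h6⟩ := hz
  refine ⟨z.1, z.2, h1, h5, h4, h6, ?_⟩
  intro p' q' hp' hq' hrun
  rcases le_or_gt p' q' with h | h
  · exact hmax (p', q') (by
      rw [Finset.mem_filter, Finset.mem_product, Finset.mem_Icc, Finset.mem_Icc]
      exact ⟨⟨⟨hp', by omega⟩, by omega, hq'⟩, h, hrun⟩)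
  · omega

/-- maximal runs are bounded by points outside `X` (or by the ends of the window) -/
theorem max_run_ends {u v p q : ℤ} (hup : u ≤ p) (hpq : p < q) (hqv : q ≤ v)
    (hrun : ∀ i, p ≤ i → i < q → i ∈ X)
    (hmax : ∀ p' q' : ℤ, u ≤ p' → q' ≤ v → (∀ i, p' ≤ i → i < q' → i ∈ X) → q' - p' ≤ q - p) :
    (u < p → p - 1 ∉ X) ∧ (q < v → q ∉ X) := by
  constructor
  · intro h hX
    have := hmax (p - 1) q (by omega) hqv (fun i h1 h2 => by
      rcases eq_or_lt_of_le h1 with h3 | h3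
      · rw [← h3]; exact hX
      · exact hrun i (by omega) h2)
    omega
  · intro h hX
    have := hmax p (q + 1) hup (by omega) (fun i h1 h2 => by
      by_cases h3 : i = q
      · rw [h3]; exact hX
      · exact hrun i h1 (by omega))
    omega

/-- mass of a subwindow is at most `2 c` times its length plus the longest run -/
theorem ms_le_max_run (hc : 0 < c) (hX : ∀ n, NClosed c n X) {u v : ℤ} {M : ℝ} (hM : 0 ≤ M)
    (hmax : ∀ p' q' : ℤ, u ≤ p' → q' ≤ v → (∀ i, p' ≤ i → i < q' → i ∈ X) →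
      ((q' - p' : ℤ) : ℝ) ≤ M) {a b : ℤ} (h1 : u ≤ a) (h2 : b ≤ v) (hab : a ≤ b) :
    (ms X a b : ℝ) ≤ M + 2 * (c * ((b - a : ℤ) : ℝ)) := by
  obtain ⟨p, q, h3, h4, h5, h6, h7⟩ := exists_run hc hX hab
  have := hmax p q (by omega) (by omega) h6
  linarith

/-- in a window whose longest run is `[p, q)`, everything to the right of `q` is `4 c`-sparse -/
theorem sparse_right_of_max (hc : 0 < c) (hc3 : c ≤ 1 / 3) (hX : ∀ n, NClosed c n X)
    {u v p q : ℤ} (hup : u ≤ p) (hpq : p < q)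
    (hrun : ∀ i, p ≤ i → i < q → i ∈ X)
    (hmax : ∀ p' q' : ℤ, u ≤ p' → q' ≤ v → (∀ i, p' ≤ i → i < q' → i ∈ X) → q' - p' ≤ q - p)
    {y : ℕ} (hy : 1 ≤ y) (hyv : q + y ≤ v) : (ms X q (q + y) : ℝ) < 4 * c * y := by
  have hqX : q ∉ X := (max_run_ends hup hpq (by omega) hrun hmax).2 (by omega)
  have hy1 : (1 : ℝ) ≤ y := by exact_mod_cast hy
  have hcy : 0 < c * y := by positivity
  obtain ⟨m, hm⟩ : ∃ m : ℕ, (m : ℤ) = q - p := ⟨(q - p).toNat, by omega⟩
  rcases le_or_gt (c * y) ((1 - c) * m) with h | h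
  · have := sparse_right_of_run hc hc3 hX hqX (m := m)
      (fun i h1 h2 => hrun i (by omega) h2) hy h
    nlinarith
  · have h1 := ms_le_max_run hc hX (u := u) (v := v) (M := m) (by positivity)
      (fun p' q' h1 h2 h3 => by
        have := hmax p' q' h1 h2 h3
        rw [← hm] at this
        exact_mod_cast this) (a := q) (b := q + y) (by omega) hyv (by omega)
    have e : ((q + y - q : ℤ) : ℝ) = y := by push_cast; ring
    rw [e] at h1
    have hm0 : (0 : ℝ) ≤ m := by positivity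
    nlinarith

/-- in a window whose longest run is `[p, q)`, everything to the left of `p` is `4 c`-sparse -/
theorem sparse_left_of_max (hc : 0 < c) (hc3 : c ≤ 1 / 3) (hX : ∀ n, NClosed c n X)
    {u v p q : ℤ} (hpq : p < q) (hqv : q ≤ v)
    (hrun : ∀ i, p ≤ i → i < q → i ∈ X)
    (hmax : ∀ p' q' : ℤ, u ≤ p' → q' ≤ v → (∀ i, p' ≤ i → i < q' → i ∈ X) → q' - p' ≤ q - p)
    {y : ℕ} (hy : 1 ≤ y) (hyv : u ≤ p - y) : (ms X (p - y) p : ℝ) < 4 * c * y := by
  have hpX : p - 1 ∉ X := (max_run_ends (by omega) hpq hqv hrun hmax).1 (by omega)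
  have hy1 : (1 : ℝ) ≤ y := by exact_mod_cast hy
  have hcy : 0 < c * y := by positivity
  obtain ⟨m, hm⟩ : ∃ m : ℕ, (m : ℤ) = q - p := ⟨(q - p).toNat, by omega⟩
  rcases le_or_gt (c * y) ((1 - c) * m) with h | h
  · have := sparse_left_of_run hc hc3 hX hpX (m := m)
      (fun i h1 h2 => hrun i h1 (by omega)) hy h
    nlinarith
  · have h1 := ms_le_max_run hc hX (u := u) (v := v) (M := m) (by positivity)
      (fun p' q' h1 h2 h3 => by
        have := hmax p' q' h1 h2 h3
        rw [← hm] at this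
        exact_mod_cast this) (a := p - y) (b := p) hyv (by omega) (by omega)
    have e : ((p - (p - y) : ℤ) : ℝ) = y := by push_cast; ring
    rw [e] at h1
    have hm0 : (0 : ℝ) ≤ m := by positivity
    nlinarith

end P108C
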