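import Vale.Agent.P108.Cmb.Basic

/-!
# P108, combinatorial section: the one-sided events (C4) and the counting maximal inequality
-/

open Set
open scoped Classical

namespace P108C

variable {c : ℝ} {n m : ℕ} {X Y B : Set ℤ} {a b : ℤ}

/-- dense on the left of `b` at scale `r` for the first time; depends only on `B ∩ [b - r, b)` -/
def LeftEv (c : ℝ) (B : Set ℤ) (b : ℤ) (r : ℕ) : Prop :=
  1 ≤ r ∧ c ^ 2 / (1 + c) * r ≤ ms (Cl c r (B ∩ Ico (b - r) b)) (b - r) b ∧
    ∀ r' : ℕ, 1 ≤ r' → r' < r → (ms (Cl c r (B ∩ Ico (b - r) b)) (b - r') b : ℝ) < c * r'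

/-- dense on the right of `b` at scale `r` for the first time; depends only on
`B ∩ [b + 1, b + 1 + r)` -/
def RightEv (c : ℝ) (B : Set ℤ) (b : ℤ) (r : ℕ) : Prop :=
  1 ≤ r ∧ c ^ 2 / (1 + c) * r ≤ ms (Cl c r (B ∩ Ico (b + 1) (b + 1 + r))) (b + 1) (b + 1 + r) ∧
    ∀ r' : ℕ, 1 ≤ r' → r' < r →
      (ms (Cl c r (B ∩ Ico (b + 1) (b + 1 + r))) (b + 1) (b + 1 + r') : ℝ) < c * r'

/-- (C1) mirror image -/
theorem nclosed_Iio_union' (hY : NClosed c n Y)
    (hsp : ∀ r : ℕ, 1 ≤ r → r ≤ n → (ms Y (b + 1) (b + 1 + r) : ℝ) < c * r) (hc : 0 < c) :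
    NClosed c n (Iio b ∪ Y) := by
  intro d hd h₁ h₂ h3 h4 hn hh
  rw [mem_union, not_or, mem_Iio, not_lt] at hd
  obtain ⟨hdb, hdY⟩ := hd
  rcases le_or_gt b h₁ with h5 | h5
  · refine hY d hdY h₁ h₂ h3 h4 hn ⟨hh.1.trans ?_, hh.2.trans ?_⟩
    · have : ms (Iio b ∪ Y) h₁ d ≤ ms Y h₁ d := ms_le_of fun i hi _ hiY => by
        rcases hiY with h | h
        · rw [mem_Iio] at h; omega
        · exact h
      exact_mod_cast this
    · have : ms (Iio b ∪ Y) (d + 1) h₂ ≤ ms Y (d + 1) h₂ := ms_le_of fun i hi _ hiY => by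
        rcases hiY with h | h
        · rw [mem_Iio] at h; omega
        · exact h
      exact_mod_cast this
  · rcases eq_or_lt_of_le (show b + 1 ≤ h₂ by omega) with h6 | h6
    · have h7 : ms (Iio b ∪ Y) (d + 1) h₂ = 0 := ms_eq_zero_of_le (by omega)
      have hpos := pos_of_window hc h3 h4
      have h8 := hh.2
      rw [h7] at h8
      push_cast at h8 hpos
      linarith
    · have h7 : ms (Iio b ∪ Y) (d + 1) h₂ ≤ ms Y (b + 1) h₂ := by
        refine (ms_mono' (by omega) le_rfl).trans (ms_le_of (a := b + 1) fun i hi _ hiY => ?_)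
        rcases hiY with h | h
        · rw [mem_Iio] at h; omega
        · exact h
      obtain ⟨r, hr⟩ : ∃ r : ℕ, (r : ℤ) = h₂ - (b + 1) := ⟨(h₂ - (b + 1)).toNat, by omega⟩
      have h8 := hsp r (by omega) (by omega)
      rw [hr, add_sub_cancel] at h8
      have h9 : c * (r : ℝ) ≤ c * ((h₂ - h₁ : ℤ) : ℝ) := by
        refine mul_le_mul_of_nonneg_left ?_ hc.le
        have : (r : ℤ) ≤ h₂ - h₁ := by omega
        exact_mod_cast this
      have h10 : (ms (Iio b ∪ Y) (d + 1) h₂ : ℝ) ≤ ms Y (b + 1) h₂ := by exact_mod_cast h7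
      linarith [hh.2]

/-- (C1) mirror image -/
theorem notMem_Cl_of_sparse' (hc : 0 < c) (hb : b ∉ B)
    (hsp : ∀ r : ℕ, 1 ≤ r → r ≤ n →
      (ms (Cl c n (B ∩ Ici (b + 1))) (b + 1) (b + 1 + r) : ℝ) < c * r) :
    b ∉ Cl c n B := by
  set Y := Cl c n (B ∩ Ici (b + 1)) with hY
  have h1 : Y ⊆ Ici (b + 1) := Cl_Ici_subset hc inter_subset_right
  have h2 : Cl c n B ⊆ Iio b ∪ Y := by
    refine Cl_min ?_ (nclosed_Iio_union' (nclosed_Cl c n _) hsp hc)
    intro i hi
    rcases lt_trichotomy i b with h | h | h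
    · exact Or.inl h
    · exact absurd (h ▸ hi) hb
    · exact Or.inr (subset_Cl _ _ _ ⟨hi, mem_Ici.2 (by omega)⟩)
  intro h
  rcases h2 h with h | h
  · exact lt_irrefl b (mem_Iio.1 h)
  · have := mem_Ici.1 (h1 h)
    omega

/-- (C4): a newly added point is dense on the left -/
theorem exists_leftEv (hc : 0 < c) (hb : b ∉ B) (hbm : b ∈ Cl c n B) :
    ∃ r : ℕ, r ≤ n ∧ LeftEv c B b r := by
  by_contra hcon
  have hex : ∃ r : ℕ, 1 ≤ r ∧ r ≤ n ∧ c * (r : ℝ) ≤ ms (Cl c n (B ∩ Iio b)) (b - r) b := by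
    by_contra hno
    push Not at hno
    exact (notMem_Cl_of_sparse hc hb fun r h1 h2 => hno r h1 h2).1 hbm
  set r := Nat.find hex with hr
  obtain ⟨h1, h2, h3⟩ := Nat.find_spec hex
  rw [← hr] at h1 h2 h3
  have hmin : ∀ r' : ℕ, 1 ≤ r' → r' < r →
      (ms (Cl c n (B ∩ Iio b)) (b - r') b : ℝ) < c * r' := by
    intro r' h4 h5
    have h6 := Nat.find_min hex (hr ▸ h5)
    push Not at h6
    exact h6 h4 (by omega)
  have hT : Cl c r (B ∩ Ico (b - r) b) = Cl c n (B ∩ Ico (b - r) b) :=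
    Cl_eq_of_subset (a := b - r) (b := b) hc inter_subset_right (by omega) (by omega)
  apply hcon
  refine ⟨r, h2, h1, ?_, ?_⟩
  · rw [hT]
    have h4 := h3.trans (ms_Cl_Iio_le (n := n) (B := B) hc (b - r) b)
    have h5 : (1 + 1 / c) = (1 + c) / c := by field_simp; ring
    rw [h5] at h4
    rw [div_mul_eq_mul_div, div_le_iff₀ (by linarith)]
    rw [div_mul_eq_mul_div, le_div_iff₀ hc] at h4
    nlinarith
  · intro r' h4 h5
    rw [hT]
    refine lt_of_le_of_lt ?_ (hmin r' h4 h5)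
    have : ms (Cl c n (B ∩ Ico (b - r) b)) (b - r') b ≤ ms (Cl c n (B ∩ Iio b)) (b - r') b := by
      refine ms_mono (Cl_mono ?_) _ _
      rintro i ⟨hi, -, hib⟩
      exact ⟨hi, hib⟩
    exact_mod_cast this

/-- (C4): a newly added point is dense on the right -/
theorem exists_rightEv (hc : 0 < c) (hb : b ∉ B) (hbm : b ∈ Cl c n B) :
    ∃ r : ℕ, r ≤ n ∧ RightEv c B b r := by
  by_contra hcon
  have hex : ∃ r : ℕ, 1 ≤ r ∧ r ≤ n ∧
      c * (r : ℝ) ≤ ms (Cl c n (B ∩ Ici (b + 1))) (b + 1) (b + 1 + r) := by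
    by_contra hno
    push Not at hno
    exact notMem_Cl_of_sparse' hc hb (fun r h1 h2 => hno r h1 h2) hbm
  set r := Nat.find hex with hr
  obtain ⟨h1, h2, h3⟩ := Nat.find_spec hex
  rw [← hr] at h1 h2 h3
  have hmin : ∀ r' : ℕ, 1 ≤ r' → r' < r →
      (ms (Cl c n (B ∩ Ici (b + 1))) (b + 1) (b + 1 + r') : ℝ) < c * r' := by
    intro r' h4 h5
    have h6 := Nat.find_min hex (hr ▸ h5)
    push Not at h6
    exact h6 h4 (by omega)
  have hT : Cl c r (B ∩ Ico (b + 1) (b + 1 + r)) = Cl c n (B ∩ Ico (b + 1) (b + 1 + r)) :=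
    Cl_eq_of_subset (a := b + 1) (b := b + 1 + r) hc inter_subset_right (by omega) (by omega)
  apply hcon
  refine ⟨r, h2, h1, ?_, ?_⟩
  · rw [hT]
    have h4 := h3.trans (ms_Cl_Ici_le (n := n) (B := B) hc (b + 1) (b + 1 + r))
    have h5 : (1 + 1 / c) = (1 + c) / c := by field_simp; ring
    rw [h5] at h4
    rw [div_mul_eq_mul_div, div_le_iff₀ (by linarith)]
    rw [div_mul_eq_mul_div, le_div_iff₀ hc] at h4
    nlinarith
  · intro r' h4 h5
    rw [hT]
    refine lt_of_le_of_lt ?_ (hmin r' h4 h5)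
    have : ms (Cl c n (B ∩ Ico (b + 1) (b + 1 + r))) (b + 1) (b + 1 + r') ≤
        ms (Cl c n (B ∩ Ici (b + 1))) (b + 1) (b + 1 + r') := by
      refine ms_mono (Cl_mono ?_) _ _
      rintro i ⟨hi, hib, -⟩
      exact ⟨hi, hib⟩
    exact_mod_cast this

/-- mass seen by half-size closures -/
theorem LeftEv.mass (hc : 0 < c) {r : ℕ} (h : LeftEv c B b r) (hr : r ≤ 2 * n) :
    c ^ 3 / (1 + c) ^ 2 * r ≤ ms (Cl c n B) (b - r) b := by
  obtain ⟨h1, h2, -⟩ := h
  obtain ⟨a', ha1, ha2, ha3, ha4⟩ : ∃ a' : ℤ, b - r ≤ a' ∧ a' ≤ b ∧ a' - (b - r) ≤ n ∧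
      b - a' ≤ n := ⟨b - ((r / 2 : ℕ) : ℤ), by omega, by omega, by omega, by omega⟩
  have h3 := ms_Cl_Ico_le (n := r) (B := B) hc ha1 ha2
  have h4 : ms (Cl c r (B ∩ Ico (b - r) a')) (b - r) a' ≤ ms (Cl c n B) (b - r) a' := by
    rw [Cl_eq_of_subset (n := r) (m := n) (a := b - r) (b := a') hc inter_subset_right
      (by omega) ha3]
    exact ms_mono (Cl_mono inter_subset_left) _ _
  have h5 : ms (Cl c r (B ∩ Ico a' b)) a' b ≤ ms (Cl c n B) a' b := by
    rw [Cl_eq_of_subset (n := r) (m := n) (a := a') (b := b) hc inter_subset_right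
      (by omega) ha4]
    exact ms_mono (Cl_mono inter_subset_left) _ _
  have h6 := ms_add (X := Cl c n B) ha1 ha2
  have h7 : ((ms (Cl c r (B ∩ Ico (b - r) a')) (b - r) a' : ℝ) +
      ms (Cl c r (B ∩ Ico a' b)) a' b) ≤ ms (Cl c n B) (b - r) b := by
    have : ms (Cl c r (B ∩ Ico (b - r) a')) (b - r) a' + ms (Cl c r (B ∩ Ico a' b)) a' b ≤
      ms (Cl c n B) (b - r) b := by omega
    exact_mod_cast this
  have h8 : c ^ 2 / (1 + c) * r ≤ (1 + 1 / c) * ms (Cl c n B) (b - r) b :=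
    h2.trans (h3.trans (mul_le_mul_of_nonneg_left h7 (by positivity)))
  have h9 : (1 + 1 / c) = (1 + c) / c := by field_simp; ring
  rw [h9, div_mul_eq_mul_div, div_mul_eq_mul_div, div_le_div_iff₀ (by linarith) hc] at h8
  rw [div_mul_eq_mul_div, div_le_iff₀ (by positivity)]
  nlinarith

theorem RightEv.mass (hc : 0 < c) {r : ℕ} (h : RightEv c B b r) (hr : r ≤ 2 * n) :
    c ^ 3 / (1 + c) ^ 2 * r ≤ ms (Cl c n B) (b + 1) (b + 1 + r) := by
  obtain ⟨h1, h2, -⟩ := h
  obtain ⟨a', ha1, ha2, ha3, ha4⟩ : ∃ a' : ℤ, b + 1 ≤ a' ∧ a' ≤ b + 1 + r ∧ a' - (b + 1) ≤ n ∧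
      b + 1 + r - a' ≤ n := ⟨b + 1 + ((r / 2 : ℕ) : ℤ), by omega, by omega, by omega, by omega⟩
  have h3 := ms_Cl_Ico_le (n := r) (B := B) hc ha1 ha2
  have h4 : ms (Cl c r (B ∩ Ico (b + 1) a')) (b + 1) a' ≤ ms (Cl c n B) (b + 1) a' := by
    rw [Cl_eq_of_subset (n := r) (m := n) (a := b + 1) (b := a') hc inter_subset_right
      (by omega) ha3]
    exact ms_mono (Cl_mono inter_subset_left) _ _
  have h5 : ms (Cl c r (B ∩ Ico a' (b + 1 + r))) a' (b + 1 + r) ≤
      ms (Cl c n B) a' (b + 1 + r) := by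
    rw [Cl_eq_of_subset (n := r) (m := n) (a := a') (b := b + 1 + r) hc inter_subset_right
      (by omega) ha4]
    exact ms_mono (Cl_mono inter_subset_left) _ _
  have h6 := ms_add (X := Cl c n B) ha1 ha2
  have h7 : ((ms (Cl c r (B ∩ Ico (b + 1) a')) (b + 1) a' : ℝ) +
      ms (Cl c r (B ∩ Ico a' (b + 1 + r))) a' (b + 1 + r)) ≤
      ms (Cl c n B) (b + 1) (b + 1 + r) := by
    have : ms (Cl c r (B ∩ Ico (b + 1) a')) (b + 1) a' +
      ms (Cl c r (B ∩ Ico a' (b + 1 + r))) a' (b + 1 + r) ≤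
      ms (Cl c n B) (b + 1) (b + 1 + r) := by omega
    exact_mod_cast this
  have h8 : c ^ 2 / (1 + c) * r ≤ (1 + 1 / c) * ms (Cl c n B) (b + 1) (b + 1 + r) :=
    h2.trans (h3.trans (mul_le_mul_of_nonneg_left h7 (by positivity)))
  have h9 : (1 + 1 / c) = (1 + c) / c := by field_simp; ring
  rw [h9, div_mul_eq_mul_div, div_mul_eq_mul_div, div_le_div_iff₀ (by linarith) hc] at h8
  rw [div_mul_eq_mul_div, div_le_iff₀ (by positivity)]
  nlinarith

/-! ### counting maximal inequality -/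

/-- points with a dense window on the left -/
def dl (θ : ℝ) (N : ℕ) (S : Set ℤ) : Set ℤ :=
  {b | ∃ r : ℕ, 1 ≤ r ∧ r ≤ N ∧ θ * r ≤ ms S (b - r) b}

/-- points with a dense window on the right -/
def dr (θ : ℝ) (N : ℕ) (S : Set ℤ) : Set ℤ :=
  {b | ∃ r : ℕ, 1 ≤ r ∧ r ≤ N ∧ θ * r ≤ ms S (b + 1) (b + 1 + r)}

/-- number of points of `dl` in `(a, a + L]` -/
theorem count_dl {θ : ℝ} (hθ : 0 < θ) (N : ℕ) (S : Set ℤ) (a : ℤ) : ∀ L : ℕ,
    θ * ms (dl θ N S) (a + 1) (a + 1 + L) ≤ ms S (a - N) (a + L) := by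
  intro L
  induction L using Nat.strong_induction_on with
  | _ L ih =>
    rcases Nat.eq_zero_or_pos L with h0 | h0
    · subst h0
      rw [ms_eq_zero_of_le (by simp)]
      push_cast
      rw [mul_zero]
      positivity
    · by_cases hu : a + (L : ℤ) ∈ dl θ N S
      · obtain ⟨r, hr1, hr2, hr3⟩ := hu
        rcases le_or_gt r L with hrL | hrL
        · have h1 := ih (L - r) (by omega)
          have h2 : ms (dl θ N S) (a + 1) (a + 1 + L) =
              ms (dl θ N S) (a + 1) (a + 1 + (L - r : ℕ)) +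
                ms (dl θ N S) (a + 1 + (L - r : ℕ)) (a + 1 + L) :=
            ms_add (by omega) (by omega)
          have h3 : (ms (dl θ N S) (a + 1 + (L - r : ℕ)) (a + 1 + L) : ℤ) ≤ r := by
            refine (ms_le _ _).trans ?_
            rw [max_le_iff]
            constructor <;> omega
          have h4 : ms S (a - N) (a + L) = ms S (a - N) (a + (L - r : ℕ)) +
              ms S (a + (L - r : ℕ)) (a + L) := ms_add (by omega) (by omega)
          have h5 : a + ((L - r : ℕ) : ℤ) = a + L - r := by omega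
          have h6 : (ms (dl θ N S) (a + 1 + (L - r : ℕ)) (a + 1 + L) : ℝ) ≤ r := by
            exact_mod_cast h3
          rw [h2, h4]
          push_cast
          rw [mul_add]
          have h7 : θ * (ms (dl θ N S) (a + 1 + (L - r : ℕ)) (a + 1 + L) : ℝ) ≤
              ms S (a + (L - r : ℕ)) (a + L) := by
            rw [h5]
            exact (mul_le_mul_of_nonneg_left h6 hθ.le).trans hr3
          exact add_le_add h1 h7
        · have h3 : (ms (dl θ N S) (a + 1) (a + 1 + L) : ℤ) ≤ L := by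
            refine (ms_le _ _).trans ?_
            rw [max_le_iff]
            constructor <;> omega
          have h4 : (ms (dl θ N S) (a + 1) (a + 1 + L) : ℝ) ≤ r := by
            have : (ms (dl θ N S) (a + 1) (a + 1 + L) : ℤ) ≤ r := by omega
            exact_mod_cast this
          have h5 : ms S (a + L - r) (a + L) ≤ ms S (a - N) (a + L) :=
            ms_mono' (by omega) le_rfl
          have h6 : (ms S (a + L - r) (a + L) : ℝ) ≤ ms S (a - N) (a + L) := by exact_mod_cast h5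
          exact (mul_le_mul_of_nonneg_left h4 hθ.le).trans (hr3.trans h6)
      · have h1 := ih (L - 1) (by omega)
        have h2 : ms (dl θ N S) (a + 1) (a + 1 + L) =
            ms (dl θ N S) (a + 1) (a + 1 + (L - 1 : ℕ)) +
              ms (dl θ N S) (a + 1 + (L - 1 : ℕ)) (a + 1 + L) :=
          ms_add (by omega) (by omega)
        have h3 : ms (dl θ N S) (a + 1 + (L - 1 : ℕ)) (a + 1 + L) = 0 := by
          refine ms_eq_zero fun i hi1 hi2 hi3 => ?_
          have : i = a + L := by omega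
          exact hu (this ▸ hi3)
        rw [h2, h3, add_zero]
        refine h1.trans ?_
        have : ms S (a - N) (a + (L - 1 : ℕ)) ≤ ms S (a - N) (a + L) :=
          ms_mono' le_rfl (by omega)
        exact_mod_cast this

/-- number of points of `dr` in `[a - L, a)` -/
theorem count_dr {θ : ℝ} (hθ : 0 < θ) (N : ℕ) (S : Set ℤ) (a : ℤ) : ∀ L : ℕ,
    θ * ms (dr θ N S) (a - L) a ≤ ms S (a - L + 1) (a + N) := by
  intro L
  induction L using Nat.strong_induction_on with
  | _ L ih =>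
    rcases Nat.eq_zero_or_pos L with h0 | h0
    · subst h0
      rw [ms_eq_zero_of_le (by simp)]
      push_cast
      rw [mul_zero]
      positivity
    · by_cases hu : a - (L : ℤ) ∈ dr θ N S
      · obtain ⟨r, hr1, hr2, hr3⟩ := hu
        rcases le_or_gt r L with hrL | hrL
        · have h1 := ih (L - r) (by omega)
          have h2 : ms (dr θ N S) (a - L) a =
              ms (dr θ N S) (a - L) (a - (L - r : ℕ)) + ms (dr θ N S) (a - (L - r : ℕ)) a :=
            ms_add (by omega) (by omega)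
          have h3 : (ms (dr θ N S) (a - L) (a - (L - r : ℕ)) : ℤ) ≤ r := by
            refine (ms_le _ _).trans ?_
            rw [max_le_iff]
            constructor <;> omega
          have h4 : ms S (a - L + 1) (a + N) = ms S (a - L + 1) (a - (L - r : ℕ) + 1) +
              ms S (a - (L - r : ℕ) + 1) (a + N) := ms_add (by omega) (by omega)
          have h5 : a - ((L - r : ℕ) : ℤ) + 1 = a - L + 1 + r := by omega
          have h6 : (ms (dr θ N S) (a - L) (a - (L - r : ℕ)) : ℝ) ≤ r := by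
            exact_mod_cast h3
          rw [h2, h4]
          push_cast
          rw [mul_add]
          have h7 : θ * (ms (dr θ N S) (a - L) (a - (L - r : ℕ)) : ℝ) ≤
              ms S (a - L + 1) (a - (L - r : ℕ) + 1) := by
            rw [h5]
            exact (mul_le_mul_of_nonneg_left h6 hθ.le).trans hr3
          exact add_le_add h7 h1
        · have h3 : (ms (dr θ N S) (a - L) a : ℤ) ≤ L := by
            refine (ms_le _ _).trans ?_
            rw [max_le_iff]
            constructor <;> omega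
          have h4 : (ms (dr θ N S) (a - L) a : ℝ) ≤ r := by
            have : (ms (dr θ N S) (a - L) a : ℤ) ≤ r := by omega
            exact_mod_cast this
          have h5 : ms S (a - L + 1) (a - L + 1 + r) ≤ ms S (a - L + 1) (a + N) :=
            ms_mono' le_rfl (by omega)
          have h6 : (ms S (a - L + 1) (a - L + 1 + r) : ℝ) ≤ ms S (a - L + 1) (a + N) := by
            exact_mod_cast h5
          exact (mul_le_mul_of_nonneg_left h4 hθ.le).trans (hr3.trans h6)
      · have h1 := ih (L - 1) (by omega)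
        have h2 : ms (dr θ N S) (a - L) a =
            ms (dr θ N S) (a - L) (a - (L - 1 : ℕ)) + ms (dr θ N S) (a - (L - 1 : ℕ)) a :=
          ms_add (by omega) (by omega)
        have h3 : ms (dr θ N S) (a - L) (a - (L - 1 : ℕ)) = 0 := by
          refine ms_eq_zero fun i hi1 hi2 hi3 => ?_
          have : i = a - L := by omega
          exact hu (this ▸ hi3)
        rw [h2, h3, zero_add]
        refine h1.trans ?_
        have : ms S (a - (L - 1 : ℕ) + 1) (a + N) ≤ ms S (a - L + 1) (a + N) :=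
          ms_mono' (by omega) le_rfl
        exact_mod_cast this

end P108C
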