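import Vale.Agent.P108.Cmb.Events
import Mathlib.MeasureTheory.Integral.Bochner.Basic
import Mathlib.MeasureTheory.Integral.Bochner.Set
import Mathlib.Dynamics.Ergodic.MeasurePreserving

/-!
# P108, combinatorial section: equivariance, measurability, maximal inequality, recursion
-/

open Set MeasureTheory
open scoped Classical

namespace P108C

variable {c : ℝ} {n m : ℕ} {X Y B : Set ℤ} {a b : ℤ}

/-! ### shifts -/

theorem ms_shift (X : Set ℤ) (j a b : ℤ) :
    ms ((fun i => i + j) ⁻¹' X) a b = ms X (a + j) (b + j) := by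
  unfold ms
  refine Finset.card_bij (fun i _ => i + j) ?_ ?_ ?_
  · intro i hi
    rw [Finset.mem_filter, Finset.mem_Ico] at hi ⊢
    exact ⟨⟨by omega, by omega⟩, hi.2⟩
  · intro i _ i' _ h
    simpa using h
  · intro i hi
    rw [Finset.mem_filter, Finset.mem_Ico] at hi
    refine ⟨i - j, ?_, by ring⟩
    rw [Finset.mem_filter, Finset.mem_Ico]
    refine ⟨⟨by omega, by omega⟩, ?_⟩
    rw [mem_preimage, sub_add_cancel]
    exact hi.2

theorem NClosed.shift (h : NClosed c n X) (j : ℤ) :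
    NClosed c n ((fun i => i + j) ⁻¹' X) := by
  intro d hd h₁ h₂ h3 h4 hn hh
  refine h (d + j) hd (h₁ + j) (h₂ + j) (by omega) (by omega) (by omega) ?_
  rw [ms_shift, ms_shift] at hh
  have e1 : h₂ + j - (h₁ + j) = h₂ - h₁ := by ring
  have e2 : d + j + 1 = d + 1 + j := by ring
  rw [e1, e2]
  exact hh

theorem Cl_shift (B : Set ℤ) (j : ℤ) :
    Cl c n ((fun i => i + j) ⁻¹' B) = (fun i => i + j) ⁻¹' (Cl c n B) := by
  apply Subset.antisymm
  · exact Cl_min (preimage_mono (subset_Cl c n B)) ((nclosed_Cl c n B).shift j)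
  · have h1 : Cl c n B ⊆ (fun i => i + (-j)) ⁻¹' (Cl c n ((fun i => i + j) ⁻¹' B)) := by
      refine Cl_min ?_ ((nclosed_Cl c n _).shift (-j))
      intro i hi
      refine subset_Cl _ _ _ ?_
      rw [mem_preimage]
      simpa using hi
    intro i hi
    have := h1 hi
    rw [mem_preimage] at this
    simpa using this

theorem leftEv_shift (B : Set ℤ) (j b : ℤ) (r : ℕ) :
    LeftEv c ((fun i => i + j) ⁻¹' B) b r ↔ LeftEv c B (b + j) r := by
  unfold LeftEv
  have e1 : (fun i => i + j) ⁻¹' B ∩ Ico (b - r) b =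
      (fun i => i + j) ⁻¹' (B ∩ Ico (b + j - r) (b + j)) := by
    ext i
    simp only [mem_inter_iff, mem_preimage, mem_Ico]
    constructor
    · rintro ⟨h1, h2, h3⟩; exact ⟨h1, by omega, by omega⟩
    · rintro ⟨h1, h2, h3⟩; exact ⟨h1, by omega, by omega⟩
  rw [e1, Cl_shift]
  simp only [ms_shift]
  have e2 : ∀ r' : ℕ, b - (r' : ℤ) + j = b + j - r' := fun r' => by ring
  simp only [e2]

theorem rightEv_shift (B : Set ℤ) (j b : ℤ) (r : ℕ) :
    RightEv c ((fun i => i + j) ⁻¹' B) b r ↔ RightEv c B (b + j) r := by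
  unfold RightEv
  have e1 : (fun i => i + j) ⁻¹' B ∩ Ico (b + 1) (b + 1 + r) =
      (fun i => i + j) ⁻¹' (B ∩ Ico (b + j + 1) (b + j + 1 + r)) := by
    ext i
    simp only [mem_inter_iff, mem_preimage, mem_Ico]
    constructor
    · rintro ⟨h1, h2, h3⟩; exact ⟨h1, by omega, by omega⟩
    · rintro ⟨h1, h2, h3⟩; exact ⟨h1, by omega, by omega⟩
  rw [e1, Cl_shift]
  simp only [ms_shift]
  have e2 : b + 1 + j = b + j + 1 := by ring
  have e3 : ∀ r' : ℕ, b + 1 + (r' : ℤ) + j = b + j + 1 + r' := fun r' => by ring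
  simp only [e2, e3]

/-! ### closure as a union of finite iterates -/

/-- one closure step -/
def step (c : ℝ) (n : ℕ) (X : Set ℤ) : Set ℤ :=
  X ∪ {b | ∃ l r : ℕ, l + r + 1 ≤ n ∧ c * ((l + r + 1 : ℕ) : ℝ) ≤ ms X (b - l) b ∧
    c * ((l + r + 1 : ℕ) : ℝ) ≤ ms X (b + 1) (b + 1 + r)}

theorem step_subset (hX : NClosed c n X) : step c n X ⊆ X := by
  rintro b (hb | ⟨l, r, h1, h2, h3⟩)
  · exact hb
  · by_contra hb
    refine hX b hb (b - l) (b + 1 + r) (by omega) (by omega) (by omega) ?_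
    have e : ((b + 1 + r - (b - l) : ℤ) : ℝ) = ((l + r + 1 : ℕ) : ℝ) := by
      push_cast; ring
    rw [e]
    exact ⟨h2, h3⟩

theorem step_mono (h : X ⊆ Y) : step c n X ⊆ step c n Y := by
  rintro b (hb | ⟨l, r, h1, h2, h3⟩)
  · exact Or.inl (h hb)
  · refine Or.inr ⟨l, r, h1, h2.trans ?_, h3.trans ?_⟩
    · exact_mod_cast ms_mono h _ _
    · exact_mod_cast ms_mono h _ _

/-- iterates of `step` -/
def steps (c : ℝ) (n : ℕ) (B : Set ℤ) : ℕ → Set ℤ
  | 0 => B
  | k + 1 => step c n (steps c n B k)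

theorem steps_mono (B : Set ℤ) {k l : ℕ} (h : k ≤ l) : steps c n B k ⊆ steps c n B l := by
  induction h with
  | refl => exact Subset.rfl
  | step _ ih => exact ih.trans subset_union_left

theorem steps_subset_Cl (B : Set ℤ) (k : ℕ) : steps c n B k ⊆ Cl c n B := by
  induction k with
  | zero => exact subset_Cl _ _ _
  | succ k ih => exact (step_mono ih).trans (step_subset (nclosed_Cl c n B))

/-- a finite window of an increasing union is attained at a finite stage -/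
theorem exists_ms_iUnion {S : ℕ → Set ℤ} (hS : Monotone S) (a b : ℤ) :
    ∃ k, ∀ i, a ≤ i → i < b → i ∈ ⋃ k, S k → i ∈ S k := by
  have h1 : ∀ i : ℤ, ∃ k, i ∈ ⋃ k, S k → i ∈ S k := by
    intro i
    by_cases hi : i ∈ ⋃ k, S k
    · obtain ⟨k, hk⟩ := mem_iUnion.1 hi
      exact ⟨k, fun _ => hk⟩
    · exact ⟨0, fun h => absurd h hi⟩
  choose g hg using h1
  refine ⟨(Finset.Ico a b).sup g, fun i hi1 hi2 hi3 => ?_⟩
  exact hS (Finset.le_sup (Finset.mem_Ico.2 ⟨hi1, hi2⟩)) (hg i hi3)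

theorem Cl_eq_iUnion (B : Set ℤ) : Cl c n B = ⋃ k, steps c n B k := by
  apply Subset.antisymm
  · refine Cl_min (subset_iUnion (steps c n B) 0) ?_
    intro d hd h₁ h₂ h3 h4 hn hh
    have hmono : Monotone (steps c n B) := fun _ _ h => steps_mono B h
    obtain ⟨k, hk⟩ := exists_ms_iUnion hmono h₁ h₂
    have hd' : d ∈ steps c n B (k + 1) := by
      refine Or.inr ⟨(d - h₁).toNat, (h₂ - (d + 1)).toNat, by omega, ?_, ?_⟩
      · have e1 : (((d - h₁).toNat + (h₂ - (d + 1)).toNat + 1 : ℕ) : ℝ) =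
            ((h₂ - h₁ : ℤ) : ℝ) := by
          have : (((d - h₁).toNat + (h₂ - (d + 1)).toNat + 1 : ℕ) : ℤ) = h₂ - h₁ := by
            push_cast; omega
          exact_mod_cast this
        have e2 : d - ((d - h₁).toNat : ℤ) = h₁ := by omega
        rw [e1, e2]
        refine hh.1.trans ?_
        have : ms (⋃ k, steps c n B k) h₁ d ≤ ms (steps c n B k) h₁ d :=
          ms_le_of fun i h5 h6 h7 => hk i h5 (by omega) h7
        exact_mod_cast this
      · have e1 : (((d - h₁).toNat + (h₂ - (d + 1)).toNat + 1 : ℕ) : ℝ) =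
            ((h₂ - h₁ : ℤ) : ℝ) := by
          have : (((d - h₁).toNat + (h₂ - (d + 1)).toNat + 1 : ℕ) : ℤ) = h₂ - h₁ := by
            push_cast; omega
          exact_mod_cast this
        have e2 : d + 1 + ((h₂ - (d + 1)).toNat : ℤ) = h₂ := by omega
        rw [e1, e2]
        refine hh.2.trans ?_
        have : ms (⋃ k, steps c n B k) (d + 1) h₂ ≤ ms (steps c n B k) (d + 1) h₂ :=
          ms_le_of fun i h5 h6 h7 => hk i (by omega) h6 h7
        exact_mod_cast this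
    exact hd (mem_iUnion.2 ⟨k + 1, hd'⟩)
  · exact iUnion_subset fun k => steps_subset_Cl B k

/-! ### the full closure -/

/-- closure at all scales -/
def ClInf (c : ℝ) (B : Set ℤ) : Set ℤ := ⋃ n, Cl c n B

theorem nclosed_ClInf (c : ℝ) (n : ℕ) (B : Set ℤ) : NClosed c n (ClInf c B) := by
  intro d hd h₁ h₂ h3 h4 hn hh
  have hmono : Monotone (fun n => Cl c n B) := fun _ _ h => Cl_mono_n h
  obtain ⟨k, hk⟩ := exists_ms_iUnion hmono h₁ h₂
  have hsub : Cl c k B ⊆ Cl c (max n k) B := Cl_mono_n (le_max_right _ _)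
  refine nclosed_Cl c (max n k) B d ?_ h₁ h₂ h3 h4 (hn.trans (by exact_mod_cast le_max_left n k))
    ⟨hh.1.trans ?_, hh.2.trans ?_⟩
  · exact fun h => hd (mem_iUnion.2 ⟨_, h⟩)
  · have : ms (ClInf c B) h₁ d ≤ ms (Cl c (max n k) B) h₁ d :=
      ms_le_of fun i h5 h6 h7 => hsub (hk i h5 (by omega) h7)
    exact_mod_cast this
  · have : ms (ClInf c B) (d + 1) h₂ ≤ ms (Cl c (max n k) B) (d + 1) h₂ :=
      ms_le_of fun i h5 h6 h7 => hsub (hk i (by omega) h6 h7)
    exact_mod_cast this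

theorem subset_ClInf (c : ℝ) (B : Set ℤ) : B ⊆ ClInf c B :=
  (subset_Cl c 0 B).trans (subset_iUnion (fun n => Cl c n B) 0)

theorem ClInf_min (h : B ⊆ X) (hX : ∀ n, NClosed c n X) : ClInf c B ⊆ X :=
  iUnion_subset fun n => Cl_min h (hX n)

/-! ### equivariant measurable random sets -/

variable {Ω : Type*} [MeasurableSpace Ω]

/-- equivariant measurable random subset of `ℤ` -/
structure Equi (T : ℤ → Ω → Ω) (S : Ω → Set ℤ) : Prop where
  shift : ∀ j ω, S (T j ω) = (fun i => i + j) ⁻¹' (S ω)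
  meas : ∀ i, MeasurableSet {ω | i ∈ S ω}

theorem measurable_ms {S : Ω → Set ℤ} (hS : ∀ i, MeasurableSet {ω | i ∈ S ω}) (a b : ℤ) :
    Measurable fun ω => ms (S ω) a b := by
  have h1 : (fun ω => ms (S ω) a b) =
      fun ω => ∑ i ∈ Finset.Ico a b, ({ω | i ∈ S ω}.indicator (fun _ => (1 : ℕ))) ω := by
    funext ω
    unfold ms
    rw [Finset.card_filter]
    refine Finset.sum_congr rfl fun i _ => ?_
    by_cases h : i ∈ S ω
    · rw [if_pos h, indicator_of_mem (show ω ∈ {ω | i ∈ S ω} from h)]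
    · rw [if_neg h, indicator_of_notMem (show ω ∉ {ω | i ∈ S ω} from h)]
  rw [h1]
  exact Finset.measurable_fun_sum _ fun i _ => measurable_const.indicator (hS i)

theorem meas_ms_ge {S : Ω → Set ℤ} (hS : ∀ i, MeasurableSet {ω | i ∈ S ω}) (a b : ℤ) (t : ℝ) :
    MeasurableSet {ω | t ≤ ms (S ω) a b} := by
  have h : Measurable fun ω => (ms (S ω) a b : ℝ) :=
    measurable_from_nat.comp (measurable_ms hS a b)
  exact measurableSet_le measurable_const h

theorem meas_ms_lt {S : Ω → Set ℤ} (hS : ∀ i, MeasurableSet {ω | i ∈ S ω}) (a b : ℤ) (t : ℝ) :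
    MeasurableSet {ω | (ms (S ω) a b : ℝ) < t} := by
  have h : Measurable fun ω => (ms (S ω) a b : ℝ) :=
    measurable_from_nat.comp (measurable_ms hS a b)
  exact measurableSet_lt h measurable_const

theorem meas_step {S : Ω → Set ℤ} (hS : ∀ i, MeasurableSet {ω | i ∈ S ω}) (c : ℝ) (n : ℕ)
    (i : ℤ) : MeasurableSet {ω | i ∈ step c n (S ω)} := by
  have h1 : {ω | i ∈ step c n (S ω)} = {ω | i ∈ S ω} ∪
      ⋃ l : ℕ, ⋃ r : ℕ, ⋃ (_ : l + r + 1 ≤ n),
        ({ω | c * ((l + r + 1 : ℕ) : ℝ) ≤ ms (S ω) (i - l) i} ∩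
          {ω | c * ((l + r + 1 : ℕ) : ℝ) ≤ ms (S ω) (i + 1) (i + 1 + r)}) := by
    ext ω
    simp only [step, mem_ofPred_eq, mem_union, mem_iUnion, mem_inter_iff, exists_prop]
  rw [h1]
  refine (hS i).union (MeasurableSet.iUnion fun l => MeasurableSet.iUnion fun r =>
    MeasurableSet.iUnion fun _ => (meas_ms_ge hS _ _ _).inter (meas_ms_ge hS _ _ _))

theorem meas_steps {S : Ω → Set ℤ} (hS : ∀ i, MeasurableSet {ω | i ∈ S ω}) (c : ℝ) (n k : ℕ) :
    ∀ i, MeasurableSet {ω | i ∈ steps c n (S ω) k} := by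
  induction k with
  | zero => exact hS
  | succ k ih => exact fun i => meas_step ih c n i

theorem meas_Cl {S : Ω → Set ℤ} (hS : ∀ i, MeasurableSet {ω | i ∈ S ω}) (c : ℝ) (n : ℕ) (i : ℤ) :
    MeasurableSet {ω | i ∈ Cl c n (S ω)} := by
  simp only [Cl_eq_iUnion, mem_iUnion, ofPred_exists]
  exact MeasurableSet.iUnion fun k => meas_steps hS c n k i

theorem meas_ClInf {S : Ω → Set ℤ} (hS : ∀ i, MeasurableSet {ω | i ∈ S ω}) (c : ℝ) (i : ℤ) :
    MeasurableSet {ω | i ∈ ClInf c (S ω)} := by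
  simp only [ClInf, mem_iUnion, ofPred_exists]
  exact MeasurableSet.iUnion fun k => meas_Cl hS c k i

theorem Equi.cl {T : ℤ → Ω → Ω} {S : Ω → Set ℤ} (h : Equi T S) (c : ℝ) (n : ℕ) :
    Equi T (fun ω => Cl c n (S ω)) where
  shift j ω := by rw [h.shift, Cl_shift]
  meas i := meas_Cl h.meas c n i

theorem meas_inter_Ico {S : Ω → Set ℤ} (hS : ∀ i, MeasurableSet {ω | i ∈ S ω}) (a b : ℤ) :
    ∀ i, MeasurableSet {ω | i ∈ S ω ∩ Ico a b} := by
  intro i
  by_cases hi : i ∈ Ico a b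
  · have : {ω | i ∈ S ω ∩ Ico a b} = {ω | i ∈ S ω} := by
      ext ω; simp only [mem_ofPred_eq, mem_inter_iff, and_iff_left hi]
    rw [this]; exact hS i
  · have : {ω | i ∈ S ω ∩ Ico a b} = ∅ := by
      ext ω
      simp only [mem_ofPred_eq, mem_inter_iff, mem_empty_iff_false, iff_false]
      exact fun h => hi h.2
    rw [this]; exact MeasurableSet.empty

theorem meas_leftEv {S : Ω → Set ℤ} (hS : ∀ i, MeasurableSet {ω | i ∈ S ω}) (c : ℝ) (b : ℤ)
    (r : ℕ) : MeasurableSet {ω | LeftEv c (S ω) b r} := by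
  have hm := fun i => meas_Cl (meas_inter_Ico hS (b - r) b) c r i
  have h1 : {ω | LeftEv c (S ω) b r} = {_ω : Ω | 1 ≤ r} ∩
      ({ω | c ^ 2 / (1 + c) * r ≤ ms (Cl c r (S ω ∩ Ico (b - r) b)) (b - r) b} ∩
      ⋂ r' : ℕ, ⋂ _ : 1 ≤ r', ⋂ _ : r' < r,
        {ω | (ms (Cl c r (S ω ∩ Ico (b - r) b)) (b - r') b : ℝ) < c * r'}) := by
    ext ω
    simp only [LeftEv, mem_ofPred_eq, mem_inter_iff, mem_iInter]
  rw [h1]
  exact (MeasurableSet.const _).inter ((meas_ms_ge hm _ _ _).inter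
    (MeasurableSet.iInter fun r' => MeasurableSet.iInter fun _ => MeasurableSet.iInter fun _ =>
    meas_ms_lt hm _ _ _))

theorem meas_rightEv {S : Ω → Set ℤ} (hS : ∀ i, MeasurableSet {ω | i ∈ S ω}) (c : ℝ) (b : ℤ)
    (r : ℕ) : MeasurableSet {ω | RightEv c (S ω) b r} := by
  have hm := fun i => meas_Cl (meas_inter_Ico hS (b + 1) (b + 1 + r)) c r i
  have h1 : {ω | RightEv c (S ω) b r} = {_ω : Ω | 1 ≤ r} ∩
      ({ω | c ^ 2 / (1 + c) * r ≤
          ms (Cl c r (S ω ∩ Ico (b + 1) (b + 1 + r))) (b + 1) (b + 1 + r)} ∩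
      ⋂ r' : ℕ, ⋂ _ : 1 ≤ r', ⋂ _ : r' < r,
        {ω | (ms (Cl c r (S ω ∩ Ico (b + 1) (b + 1 + r))) (b + 1) (b + 1 + r') : ℝ) <
          c * r'}) := by
    ext ω
    simp only [RightEv, mem_ofPred_eq, mem_inter_iff, mem_iInter]
  rw [h1]
  exact (MeasurableSet.const _).inter ((meas_ms_ge hm _ _ _).inter
    (MeasurableSet.iInter fun r' => MeasurableSet.iInter fun _ => MeasurableSet.iInter fun _ =>
    meas_ms_lt hm _ _ _))

theorem Equi.dl {T : ℤ → Ω → Ω} {S : Ω → Set ℤ} (h : Equi T S) (θ : ℝ) (N : ℕ) :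
    Equi T (fun ω => dl θ N (S ω)) where
  shift j ω := by
    ext i
    simp only [P108C.dl, h.shift, ms_shift, mem_ofPred_eq, mem_preimage]
    have e : ∀ r : ℕ, i - (r : ℤ) + j = i + j - r := fun r => by ring
    simp only [e]
  meas i := by
    have h1 : {ω | i ∈ P108C.dl θ N (S ω)} = ⋃ r : ℕ, ⋃ (_ : 1 ≤ r ∧ r ≤ N),
        {ω | θ * r ≤ ms (S ω) (i - r) i} := by
      ext ω
      simp only [P108C.dl, mem_ofPred_eq, mem_iUnion, exists_prop, and_assoc]
    rw [h1]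
    exact MeasurableSet.iUnion fun r => MeasurableSet.iUnion fun _ => meas_ms_ge h.meas _ _ _

theorem Equi.dr {T : ℤ → Ω → Ω} {S : Ω → Set ℤ} (h : Equi T S) (θ : ℝ) (N : ℕ) :
    Equi T (fun ω => dr θ N (S ω)) where
  shift j ω := by
    ext i
    simp only [P108C.dr, h.shift, ms_shift, mem_ofPred_eq, mem_preimage]
    have e : ∀ r : ℕ, i + 1 + (r : ℤ) + j = i + j + 1 + r := fun r => by ring
    have e' : i + 1 + j = i + j + 1 := by ring
    simp only [e, e']
  meas i := by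
    have h1 : {ω | i ∈ P108C.dr θ N (S ω)} = ⋃ r : ℕ, ⋃ (_ : 1 ≤ r ∧ r ≤ N),
        {ω | θ * r ≤ ms (S ω) (i + 1) (i + 1 + r)} := by
      ext ω
      simp only [P108C.dr, mem_ofPred_eq, mem_iUnion, exists_prop, and_assoc]
    rw [h1]
    exact MeasurableSet.iUnion fun r => MeasurableSet.iUnion fun _ => meas_ms_ge h.meas _ _ _

/-! ### expectation of the counting function -/

variable {μ : Measure Ω} [IsProbabilityMeasure μ] {T : ℤ → Ω → Ω}

omit [IsProbabilityMeasure μ] in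
theorem Equi.measure_eq (hT : ∀ i, MeasurePreserving (T i) μ μ) {S : Ω → Set ℤ} (h : Equi T S)
    (i : ℤ) : μ.real {ω | i ∈ S ω} = μ.real {ω | (0 : ℤ) ∈ S ω} := by
  have h1 : {ω | i ∈ S ω} = T i ⁻¹' {ω | (0 : ℤ) ∈ S ω} := by
    ext ω
    simp only [mem_ofPred_eq, mem_preimage, h.shift, zero_add]
  rw [h1, measureReal_def, measureReal_def, (hT i).measure_preimage (h.meas 0).nullMeasurableSet]

theorem Equi.integral_ms (hT : ∀ i, MeasurePreserving (T i) μ μ) {S : Ω → Set ℤ} (h : Equi T S)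
    {a b : ℤ} (hab : a ≤ b) :
    ∫ ω, (ms (S ω) a b : ℝ) ∂μ = (b - a) * μ.real {ω | (0 : ℤ) ∈ S ω} := by
  have h1 : (fun ω => (ms (S ω) a b : ℝ)) =
      fun ω => ∑ i ∈ Finset.Ico a b, ({ω | i ∈ S ω}.indicator (fun _ => (1 : ℝ))) ω := by
    funext ω
    unfold ms
    rw [Finset.card_filter]
    push_cast
    refine Finset.sum_congr rfl fun i _ => ?_
    by_cases h : i ∈ S ω
    · rw [if_pos h, indicator_of_mem (show ω ∈ {ω | i ∈ S ω} from h)]
    · rw [if_neg h, indicator_of_notMem (show ω ∉ {ω | i ∈ S ω} from h)]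
  rw [h1, integral_finsetSum]
  · have h2 : ∀ i ∈ Finset.Ico a b, ∫ ω, ({ω | i ∈ S ω}.indicator (fun _ => (1 : ℝ))) ω ∂μ =
        μ.real {ω | (0 : ℤ) ∈ S ω} := by
      intro i _
      rw [integral_indicator (h.meas i), setIntegral_const, smul_eq_mul, mul_one,
        h.measure_eq hT i]
    rw [Finset.sum_congr rfl h2, Finset.sum_const, Int.card_Ico, nsmul_eq_mul]
    congr 1
    have : ((b - a).toNat : ℤ) = b - a := Int.toNat_of_nonneg (by omega)
    exact_mod_cast this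
  · intro i _
    exact (integrable_const (1 : ℝ)).indicator (h.meas i)

theorem Equi.integrable_ms {S : Ω → Set ℤ} (h : Equi T S) (a b : ℤ) :
    Integrable (fun ω => (ms (S ω) a b : ℝ)) μ := by
  refine Integrable.of_bound ((measurable_from_nat.comp
    (measurable_ms h.meas a b)).aestronglyMeasurable) ((Finset.Ico a b).card : ℝ) ?_
  refine Filter.Eventually.of_forall fun ω => ?_
  rw [Real.norm_eq_abs, abs_of_nonneg (by positivity)]
  exact_mod_cast Finset.card_filter_le _ _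

/-- maximal inequality, left -/
theorem Equi.maximal_left (hT : ∀ i, MeasurePreserving (T i) μ μ) {S : Ω → Set ℤ}
    (h : Equi T S) {θ : ℝ} (hθ : 0 < θ) (N : ℕ) :
    θ * μ.real {ω | (0 : ℤ) ∈ P108C.dl θ N (S ω)} ≤ μ.real {ω | (0 : ℤ) ∈ S ω} := by
  set x := μ.real {ω | (0 : ℤ) ∈ P108C.dl θ N (S ω)} with hx
  set y := μ.real {ω | (0 : ℤ) ∈ S ω} with hy
  have h1 : ∀ L : ℕ, θ * (L * x) ≤ (L + N) * y := by
    intro L
    have h2 : ∫ ω, θ * (ms (P108C.dl θ N (S ω)) (0 + 1) (0 + 1 + L) : ℝ) ∂μ ≤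
        ∫ ω, (ms (S ω) (0 - N) (0 + L) : ℝ) ∂μ := by
      refine integral_mono_ae (((h.dl θ N).integrable_ms _ _).const_mul _)
        (h.integrable_ms _ _) (Filter.Eventually.of_forall fun ω => ?_)
      exact count_dl hθ N (S ω) 0 L
    rw [integral_const_mul, (h.dl θ N).integral_ms hT (by omega), h.integral_ms hT (by omega)] at h2
    push_cast at h2
    rw [← hx, ← hy] at h2
    nlinarith
  by_contra hcon
  push Not at hcon
  obtain ⟨L, hL⟩ := exists_nat_gt (N * y / (θ * x - y))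
  have h3 := h1 L
  rw [div_lt_iff₀ (by linarith)] at hL
  nlinarith

/-- maximal inequality, right -/
theorem Equi.maximal_right (hT : ∀ i, MeasurePreserving (T i) μ μ) {S : Ω → Set ℤ}
    (h : Equi T S) {θ : ℝ} (hθ : 0 < θ) (N : ℕ) :
    θ * μ.real {ω | (0 : ℤ) ∈ P108C.dr θ N (S ω)} ≤ μ.real {ω | (0 : ℤ) ∈ S ω} := by
  set x := μ.real {ω | (0 : ℤ) ∈ P108C.dr θ N (S ω)} with hx
  set y := μ.real {ω | (0 : ℤ) ∈ S ω} with hy
  have hy0 : 0 ≤ y := measureReal_nonneg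
  have h1 : ∀ L : ℕ, θ * (L * x) ≤ (L + N) * y := by
    intro L
    have h2 : ∫ ω, θ * (ms (P108C.dr θ N (S ω)) (0 - L) 0 : ℝ) ∂μ ≤
        ∫ ω, (ms (S ω) (0 - L) (0 + N) : ℝ) ∂μ := by
      refine integral_mono_ae (((h.dr θ N).integrable_ms _ _).const_mul _)
        (h.integrable_ms _ _) (Filter.Eventually.of_forall fun ω => ?_)
      refine (count_dr hθ N (S ω) 0 L).trans ?_
      exact Nat.cast_le.2 (ms_mono' (by omega) le_rfl)
    rw [integral_const_mul, (h.dr θ N).integral_ms hT (by omega), h.integral_ms hT (by omega)] at h2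
    push_cast at h2
    rw [← hx, ← hy] at h2
    nlinarith
  by_contra hcon
  push Not at hcon
  obtain ⟨L, hL⟩ := exists_nat_gt (N * y / (θ * x - y))
  have h3 := h1 L
  rw [div_lt_iff₀ (by linarith)] at hL
  nlinarith

/-! ### trivial scales -/

theorem nclosed_one (hc : 0 < c) (hn : n ≤ 1) (X : Set ℤ) : NClosed c n X := by
  intro d _ h₁ h₂ h3 h4 hn' hh
  have h5 : h₁ = d := by omega
  have h7 : ms X h₁ d = 0 := ms_eq_zero_of_le (by omega)
  have hpos := pos_of_window hc h3 h4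
  have h8 := hh.1
  rw [h7] at h8
  push_cast at h8 hpos
  linarith

/-! ### the recursion -/

/-- **The recursion theorem.**  If the two-sided first-scale events are decorrelated outside small
sets, then the density of the closure stays comparable with the density of the basic set. -/
theorem closure_bound (hT : ∀ i, MeasurePreserving (T i) μ μ)
    {B : Ω → Set ℤ} (hB : Equi T B) {c C F : ℝ} (hc : 0 < c) (hC : 0 ≤ C)
    (N : ℕ → Set Ω)
    (hdec : ∀ n : ℕ, μ.real ({ω | (0 : ℤ) ∉ B ω ∧ (∃ r ≤ n, LeftEv c (B ω) 0 r) ∧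
        (∃ r ≤ n, RightEv c (B ω) 0 r)} \ N n) ≤
      C * μ.real {ω | ∃ r ≤ n, LeftEv c (B ω) 0 r} * μ.real {ω | ∃ r ≤ n, RightEv c (B ω) 0 r})
    (hF : ∀ n, μ.real {ω | (0 : ℤ) ∈ B ω} + μ.real (N n) ≤ F)
    (hCF : 4 * F * C * ((1 + c) ^ 2 / c ^ 3) ^ 2 ≤ 1) :
    ∀ n, μ.real {ω | (0 : ℤ) ∈ Cl c n (B ω)} ≤ 2 * F := by
  have hF0 : 0 ≤ F := (add_nonneg measureReal_nonneg measureReal_nonneg).trans (hF 0)
  intro n
  induction n using Nat.strong_induction_on with
  | _ n ih =>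
    rcases le_or_gt n 1 with hn | hn
    · have h1 : {ω | (0 : ℤ) ∈ Cl c n (B ω)} = {ω | (0 : ℤ) ∈ B ω} := by
        ext ω
        simp only [mem_ofPred_eq]
        rw [Cl_eq_self (nclosed_one hc hn (B ω))]
      rw [h1]
      have h2 := hF 0
      have h3 : 0 ≤ μ.real (N 0) := measureReal_nonneg
      linarith
    · obtain ⟨l, hl1, hl2⟩ : ∃ l : ℕ, l < n ∧ n ≤ 2 * l := ⟨(n + 1) / 2, by omega, by omega⟩
      have hcl := hB.cl c l
      set θ : ℝ := c ^ 3 / (1 + c) ^ 2 with hθdef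
      have hθ : 0 < θ := by positivity
      have hL : μ.real {ω | ∃ r ≤ n, LeftEv c (B ω) 0 r} ≤
          μ.real {ω | (0 : ℤ) ∈ P108C.dl θ n (Cl c l (B ω))} := by
        refine measureReal_mono ?_
        rintro ω ⟨r, hr1, hr2⟩
        exact ⟨r, hr2.1, hr1, hr2.mass hc (by omega)⟩
      have hR : μ.real {ω | ∃ r ≤ n, RightEv c (B ω) 0 r} ≤
          μ.real {ω | (0 : ℤ) ∈ P108C.dr θ n (Cl c l (B ω))} := by
        refine measureReal_mono ?_
        rintro ω ⟨r, hr1, hr2⟩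
        exact ⟨r, hr2.1, hr1, hr2.mass hc (by omega)⟩
      have hL2 := hcl.maximal_left hT hθ n
      have hR2 := hcl.maximal_right hT hθ n
      have hih := ih l hl1
      have hL3 : μ.real {ω | ∃ r ≤ n, LeftEv c (B ω) 0 r} ≤ 2 * F / θ := by
        rw [le_div_iff₀ hθ]
        nlinarith
      have hR3 : μ.real {ω | ∃ r ≤ n, RightEv c (B ω) 0 r} ≤ 2 * F / θ := by
        rw [le_div_iff₀ hθ]
        nlinarith
      have hsub : {ω | (0 : ℤ) ∈ Cl c n (B ω)} ⊆ {ω | (0 : ℤ) ∈ B ω} ∪ (N n ∪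
          ({ω | (0 : ℤ) ∉ B ω ∧ (∃ r ≤ n, LeftEv c (B ω) 0 r) ∧
            (∃ r ≤ n, RightEv c (B ω) 0 r)} \ N n)) := by
        intro ω hω
        by_cases h1 : (0 : ℤ) ∈ B ω
        · exact Or.inl h1
        · by_cases h2 : ω ∈ N n
          · exact Or.inr (Or.inl h2)
          · exact Or.inr (Or.inr ⟨⟨h1, exists_leftEv hc h1 hω, exists_rightEv hc h1 hω⟩, h2⟩)
      have h3 := measureReal_mono (μ := μ) hsub
      have h4 := h3.trans ((measureReal_union_le _ _).trans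
        (add_le_add le_rfl (measureReal_union_le _ _)))
      have h5 := hdec n
      have h6 := hF n
      have h7 : C * μ.real {ω | ∃ r ≤ n, LeftEv c (B ω) 0 r} *
          μ.real {ω | ∃ r ≤ n, RightEv c (B ω) 0 r} ≤ C * (2 * F / θ) * (2 * F / θ) := by
        refine mul_le_mul (mul_le_mul_of_nonneg_left hL3 hC) hR3 measureReal_nonneg ?_
        positivity
      have h8 : C * (2 * F / θ) * (2 * F / θ) ≤ F := by
        have e : C * (2 * F / θ) * (2 * F / θ) = (4 * F * C * ((1 + c) ^ 2 / c ^ 3) ^ 2) * F := by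
          rw [hθdef]
          field_simp
          ring
        rw [e]
        nlinarith
      linarith

theorem closure_bound_inf (hT : ∀ i, MeasurePreserving (T i) μ μ)
    {B : Ω → Set ℤ} (hB : Equi T B) {c C F : ℝ} (hc : 0 < c) (hC : 0 ≤ C)
    (N : ℕ → Set Ω)
    (hdec : ∀ n : ℕ, μ.real ({ω | (0 : ℤ) ∉ B ω ∧ (∃ r ≤ n, LeftEv c (B ω) 0 r) ∧
        (∃ r ≤ n, RightEv c (B ω) 0 r)} \ N n) ≤
      C * μ.real {ω | ∃ r ≤ n, LeftEv c (B ω) 0 r} * μ.real {ω | ∃ r ≤ n, RightEv c (B ω) 0 r})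
    (hF : ∀ n, μ.real {ω | (0 : ℤ) ∈ B ω} + μ.real (N n) ≤ F)
    (hCF : 4 * F * C * ((1 + c) ^ 2 / c ^ 3) ^ 2 ≤ 1) :
    μ.real {ω | (0 : ℤ) ∈ ClInf c (B ω)} ≤ 2 * F := by
  have h1 := closure_bound hT hB hc hC N hdec hF hCF
  have h2 : {ω | (0 : ℤ) ∈ ClInf c (B ω)} = ⋃ n, {ω | (0 : ℤ) ∈ Cl c n (B ω)} := by
    ext ω
    simp only [ClInf, mem_iUnion, mem_ofPred_eq]
  have hmono : Monotone fun n => {ω | (0 : ℤ) ∈ Cl c n (B ω)} := by
    intro n m hnm ω hω
    exact Cl_mono_n hnm hω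
  rw [h2]
  have h3 := tendsto_measure_iUnion_atTop (μ := μ) hmono
  have h4 : Filter.Tendsto (fun n => μ.real {ω | (0 : ℤ) ∈ Cl c n (B ω)}) Filter.atTop
      (nhds (μ.real (⋃ n, {ω | (0 : ℤ) ∈ Cl c n (B ω)}))) :=
    (ENNReal.tendsto_toReal (measure_ne_top μ _)).comp h3
  exact le_of_tendsto' h4 h1

end P108C
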