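import Mathlib.Data.Int.Interval
import Mathlib.Data.Fintype.BigOperators
import Mathlib.Data.Fintype.Pi
import Mathlib.Tactic

/-!
# P108: number of patterns made of long zones

A pattern in a window of `n` sites which is a union of zones of length `≥ s` (cut by the window) is
one of at most `(s + 1) ^ (2 * (n / s + 1))` sets: in a block of `s` sites its complement is an
interval.
-/

namespace P108C

open Finset

/-- `P` is the trace on `[u, w)` of a union of intervals of length `s` -/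
def LongZones (s : ℕ) (u w : ℤ) (P : Finset ℤ) : Prop :=
  P ⊆ Ico u w ∧ ∀ i ∈ P, ∃ a : ℤ, a ≤ i ∧ i < a + s ∧
    ∀ t, a ≤ t → t < a + s → u ≤ t → t < w → t ∈ P

/-- between two non-members at distance `≤ s` there is no member -/
theorem LongZones.convex {s : ℕ} {u w : ℤ} {P : Finset ℤ} (h : LongZones s u w P) {i t j : ℤ}
    (hi : i ∉ P) (hj : j ∉ P) (hui : u ≤ i) (hjw : j < w) (hit : i ≤ t) (htj : t ≤ j)
    (hij : j - i ≤ s) : t ∉ P := by
  intro ht
  obtain ⟨a, h1, h2, h3⟩ := h.2 t ht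
  have hi' : ¬ (a ≤ i) := fun h4 => hi (h3 i h4 (by omega) hui (by omega))
  have hj' : ¬ (j < a + s) := fun h4 => hj (h3 j (by omega) h4 (by omega) hjw)
  omega

/-- decoding of block data -/
noncomputable def decode (s : ℕ) (u w : ℤ) (K : ℕ) (f : Fin K → Fin (s + 1) × Fin (s + 1)) :
    Finset ℤ :=
  (Ico u w).filter fun t => ∀ k : Fin K,
    ¬ (u + (k : ℕ) * s + ((f k).1 : ℕ) ≤ t ∧ t < u + (k : ℕ) * s + ((f k).2 : ℕ))

theorem exists_decode {s n : ℕ} (hs : 1 ≤ s) {u : ℤ} {P : Finset ℤ}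
    (h : LongZones s u (u + n) P) :
    ∃ f : Fin (n / s + 1) → Fin (s + 1) × Fin (s + 1), decode s u (u + n) (n / s + 1) f = P := by
  classical
  -- complement in block `k`
  set C : ℕ → Finset ℤ := fun k =>
    (Ico (u + (k : ℤ) * s) (u + (k : ℤ) * s + s)).filter fun t => t < u + n ∧ t ∉ P with hC
  have hex : ∀ k : Fin (n / s + 1), ∃ x : Fin (s + 1) × Fin (s + 1),
      ∀ t : ℤ, u ≤ t → t < u + n →
        ((u + ((k : ℕ) : ℤ) * s + ((x.1 : ℕ) : ℤ) ≤ t ∧ t < u + ((k : ℕ) : ℤ) * s + ((x.2 : ℕ) : ℤ)) ↔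
          t ∈ C k) := by
    intro k
    by_cases hne : (C k).Nonempty
    · set m := (C k).min' hne with hm
      set M := (C k).max' hne with hM
      have hm1 := Finset.min'_mem _ hne
      have hM1 := Finset.max'_mem _ hne
      rw [← hm] at hm1
      rw [← hM] at hM1
      have hm2 := hm1
      have hM2 := hM1
      rw [hC, mem_filter, mem_Ico] at hm2 hM2
      obtain ⟨⟨hm3, hm4⟩, hm5, hm6⟩ := hm2
      obtain ⟨⟨hM3, hM4⟩, hM5, hM6⟩ := hM2
      have hmM : m ≤ M := Finset.min'_le _ _ hM1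
      refine ⟨(⟨(m - (u + ((k : ℕ) : ℤ) * s)).toNat, by omega⟩,
        ⟨(M + 1 - (u + ((k : ℕ) : ℤ) * s)).toNat, by omega⟩), ?_⟩
      intro t ht1 ht2
      have hk0 : (0 : ℤ) ≤ ((k : ℕ) : ℤ) * s := by positivity
      have e1 : (((m - (u + ((k : ℕ) : ℤ) * s)).toNat : ℕ) : ℤ) = m - (u + ((k : ℕ) : ℤ) * s) :=
        Int.toNat_of_nonneg (by linarith)
      have e2 : (((M + 1 - (u + ((k : ℕ) : ℤ) * s)).toNat : ℕ) : ℤ) =
          M + 1 - (u + ((k : ℕ) : ℤ) * s) := Int.toNat_of_nonneg (by linarith)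
      simp only [e1, e2]
      constructor
      · rintro ⟨h1, h2⟩
        have h3 : m ≤ t := by linarith
        have h4 : t ≤ M := by linarith
        rw [hC, mem_filter, mem_Ico]
        refine ⟨⟨by linarith, by linarith⟩, ht2, ?_⟩
        exact h.convex hm6 hM6 (by linarith) hM5 h3 h4 (by linarith)
      · intro h1
        have h2 : m ≤ t := Finset.min'_le _ _ h1
        have h3 : t ≤ M := Finset.le_max' _ _ h1
        exact ⟨by linarith, by linarith⟩
    · refine ⟨(⟨0, by omega⟩, ⟨0, by omega⟩), ?_⟩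
      intro t ht1 ht2
      rw [not_nonempty_iff_eq_empty] at hne
      rw [hne]
      constructor
      · rintro ⟨h1, h2⟩
        exfalso
        simp only [Nat.cast_zero, add_zero] at h1 h2
        linarith
      · intro h1
        exact absurd h1 (Finset.notMem_empty t)
  choose f hf using hex
  refine ⟨f, ?_⟩
  ext t
  unfold decode
  rw [mem_filter, mem_Ico]
  constructor
  · rintro ⟨⟨h1, h2⟩, h3⟩
    by_contra hP
    obtain ⟨k, hk⟩ : ∃ k : ℕ, (k : ℤ) = (t - u) / s := ⟨((t - u) / s).toNat, by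
      rw [Int.toNat_of_nonneg]; exact Int.ediv_nonneg (by linarith) (by positivity)⟩
    have hs0 : (0 : ℤ) < s := by exact_mod_cast hs
    have hkn : k < n / s + 1 := by
      have h5 : (k : ℤ) ≤ (n : ℤ) / s := by
        rw [hk]; exact Int.ediv_le_ediv hs0 (by linarith)
      have h6 : (k : ℤ) ≤ ((n / s : ℕ) : ℤ) := by rw [Int.natCast_div]; exact h5
      have : k ≤ n / s := by exact_mod_cast h6
      omega
    have hmem : t ∈ C ((⟨k, hkn⟩ : Fin (n / s + 1)) : ℕ) := by
      rw [hC, mem_filter, mem_Ico]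
      simp only
      have h5 := Int.mul_ediv_add_emod (t - u) s
      have h6 := Int.emod_nonneg (t - u) hs0.ne'
      have h7 := Int.emod_lt_of_pos (t - u) hs0
      rw [← hk] at h5
      refine ⟨⟨?_, ?_⟩, h2, hP⟩
      · rw [mul_comm (k : ℤ)]; linarith
      · rw [mul_comm (k : ℤ)]; linarith
    exact h3 ⟨k, hkn⟩ ((hf ⟨k, hkn⟩ t h1 h2).2 hmem)
  · intro hP
    have h1 := mem_Ico.1 (h.1 hP)
    refine ⟨h1, fun k hk => ?_⟩
    have h2 := (hf k t h1.1 h1.2).1 hk
    rw [hC, mem_filter] at h2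
    exact h2.2.2 hP

/-- **Number of patterns.** -/
theorem card_patterns_le {u : ℤ} {n s : ℕ} (hs : 1 ≤ s) (F : Finset (Finset ℤ))
    (hF : ∀ P ∈ F, LongZones s u (u + n) P) : F.card ≤ (s + 1) ^ (2 * (n / s + 1)) := by
  classical
  have h1 : F ⊆ (Finset.univ : Finset (Fin (n / s + 1) → Fin (s + 1) × Fin (s + 1))).image
      (decode s u (u + n) (n / s + 1)) := by
    intro P hP
    obtain ⟨f, hf⟩ := exists_decode hs (hF P hP)
    exact Finset.mem_image.2 ⟨f, Finset.mem_univ _, hf⟩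
  refine (Finset.card_le_card h1).trans (Finset.card_image_le.trans ?_)
  rw [Finset.card_univ, Fintype.card_fun, Fintype.card_prod, Fintype.card_fin, Fintype.card_fin,
    pow_mul, sq]

/-- the finite set of all patterns -/
noncomputable def patterns (s : ℕ) (u w : ℤ) : Finset (Finset ℤ) :=
  open scoped Classical in (Ico u w).powerset.filter (LongZones s u w)

theorem mem_patterns {s : ℕ} {u w : ℤ} {P : Finset ℤ} :
    P ∈ patterns s u w ↔ LongZones s u w P := by
  classical
  unfold patterns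
  rw [mem_filter, mem_powerset]
  exact ⟨fun h => h.2, fun h => ⟨h.1, h⟩⟩

theorem card_patterns {u : ℤ} {n s : ℕ} (hs : 1 ≤ s) :
    (patterns s u (u + n)).card ≤ (s + 1) ^ (2 * (n / s + 1)) :=
  card_patterns_le hs _ fun _ hP => mem_patterns.1 hP

end P108C
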