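import Vale.Agent.P108.Cmb.Main

/-!
# P108, combinatorial section: the recursion with one-sided bad sets

The events are defined with auxiliary sets `Bm, Bp ⊆ B` which agree with `B` on the left / right of
the base outside an exceptional set.
-/

open Set MeasureTheory
open scoped Classical

namespace P108C

theorem leftEv_congr {c : ℝ} {B B' : Set ℤ} {b : ℤ} {r : ℕ}
    (h : ∀ i, b - r ≤ i → i < b → (i ∈ B ↔ i ∈ B')) : LeftEv c B b r ↔ LeftEv c B' b r := by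
  have e : B ∩ Ico (b - r) b = B' ∩ Ico (b - r) b := by
    ext i
    simp only [mem_inter_iff, mem_Ico]
    constructor
    · rintro ⟨h1, h2, h3⟩; exact ⟨(h i h2 h3).1 h1, h2, h3⟩
    · rintro ⟨h1, h2, h3⟩; exact ⟨(h i h2 h3).2 h1, h2, h3⟩
  unfold LeftEv
  rw [e]

theorem rightEv_congr {c : ℝ} {B B' : Set ℤ} {b : ℤ} {r : ℕ}
    (h : ∀ i, b + 1 ≤ i → i < b + 1 + r → (i ∈ B ↔ i ∈ B')) :
    RightEv c B b r ↔ RightEv c B' b r := by
  have e : B ∩ Ico (b + 1) (b + 1 + r) = B' ∩ Ico (b + 1) (b + 1 + r) := by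
    ext i
    simp only [mem_inter_iff, mem_Ico]
    constructor
    · rintro ⟨h1, h2, h3⟩; exact ⟨(h i h2 h3).1 h1, h2, h3⟩
    · rintro ⟨h1, h2, h3⟩; exact ⟨(h i h2 h3).2 h1, h2, h3⟩
  unfold RightEv
  rw [e]

variable {Ω : Type*} [MeasurableSpace Ω] {μ : Measure Ω} [IsProbabilityMeasure μ]
  {T : ℤ → Ω → Ω}

/-- **The recursion theorem, general form.**  `Bm, Bp` are (not necessarily equivariant) subsets of
`B` agreeing with `B` on the left (right) of the base outside the exceptional sets `N n`. -/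
theorem closure_bound_gen (hT : ∀ i, MeasurePreserving (T i) μ μ)
    {B Bm Bp : Ω → Set ℤ} (hB : Equi T B) (hBm : ∀ ω, Bm ω ⊆ B ω) (hBp : ∀ ω, Bp ω ⊆ B ω)
    {c C F : ℝ} (hc : 0 < c) (hC : 0 ≤ C) (N : ℕ → Set Ω)
    (hm : ∀ n ω, ω ∉ N n → (0 : ℤ) ∉ B ω → ∀ i : ℤ, -n ≤ i → i < 0 → i ∈ B ω → i ∈ Bm ω)
    (hp : ∀ n ω, ω ∉ N n → (0 : ℤ) ∉ B ω → ∀ i : ℤ, 0 < i → i ≤ n → i ∈ B ω → i ∈ Bp ω)
    (hdec : ∀ n : ℕ, μ.real ({ω | (0 : ℤ) ∉ B ω ∧ (∃ r ≤ n, LeftEv c (Bm ω) 0 r) ∧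
        (∃ r ≤ n, RightEv c (Bp ω) 0 r)} \ N n) ≤
      C * μ.real {ω | ∃ r ≤ n, LeftEv c (Bm ω) 0 r} *
        μ.real {ω | ∃ r ≤ n, RightEv c (Bp ω) 0 r})
    (hF : ∀ n, μ.real {ω | (0 : ℤ) ∈ B ω} + μ.real (N n) ≤ F)
    (hCF : 4 * F * C * ((1 + c) ^ 2 / c ^ 3) ^ 2 ≤ 1) :
    ∀ n, μ.real {ω | (0 : ℤ) ∈ Cl c n (B ω)} ≤ 2 * F := by
  have hF0 : 0 ≤ F := (add_nonneg measureReal_nonneg measureReal_nonneg).trans (hF 0)
  intro n
  induction n using Nat.strong_induction_on with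
  | _ n ih =>
    rcases le_or_gt n 1 with hn | hn
    · have h1 : {ω | (0 : ℤ) ∈ Cl c n (B ω)} = {ω | (0 : ℤ) ∈ B ω} := by
        ext ω
        simp only [mem_ofPred_eq]
        rw [Cl_eq_self (nclosed_one hc hn (B ω))]
      rw [h1]
      have h2 := hF 0
      have h3 : 0 ≤ μ.real (N 0) := measureReal_nonneg
      linarith
    · obtain ⟨l, hl1, hl2⟩ : ∃ l : ℕ, l < n ∧ n ≤ 2 * l := ⟨(n + 1) / 2, by omega, by omega⟩
      have hcl := hB.cl c l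
      set θ : ℝ := c ^ 3 / (1 + c) ^ 2 with hθdef
      have hθ : 0 < θ := by positivity
      have hL : μ.real {ω | ∃ r ≤ n, LeftEv c (Bm ω) 0 r} ≤
          μ.real {ω | (0 : ℤ) ∈ P108C.dl θ n (Cl c l (B ω))} := by
        refine measureReal_mono ?_
        rintro ω ⟨r, hr1, hr2⟩
        refine ⟨r, hr2.1, hr1, (hr2.mass hc (by omega : r ≤ 2 * l)).trans ?_⟩
        exact Nat.cast_le.2 (ms_mono (Cl_mono (hBm ω)) _ _)
      have hR : μ.real {ω | ∃ r ≤ n, RightEv c (Bp ω) 0 r} ≤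
          μ.real {ω | (0 : ℤ) ∈ P108C.dr θ n (Cl c l (B ω))} := by
        refine measureReal_mono ?_
        rintro ω ⟨r, hr1, hr2⟩
        refine ⟨r, hr2.1, hr1, (hr2.mass hc (by omega : r ≤ 2 * l)).trans ?_⟩
        exact Nat.cast_le.2 (ms_mono (Cl_mono (hBp ω)) _ _)
      have hL2 := hcl.maximal_left hT hθ n
      have hR2 := hcl.maximal_right hT hθ n
      have hih := ih l hl1
      have hL3 : μ.real {ω | ∃ r ≤ n, LeftEv c (Bm ω) 0 r} ≤ 2 * F / θ := by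
        rw [le_div_iff₀ hθ]
        nlinarith
      have hR3 : μ.real {ω | ∃ r ≤ n, RightEv c (Bp ω) 0 r} ≤ 2 * F / θ := by
        rw [le_div_iff₀ hθ]
        nlinarith
      have hsub : {ω | (0 : ℤ) ∈ Cl c n (B ω)} ⊆ {ω | (0 : ℤ) ∈ B ω} ∪ (N n ∪
          ({ω | (0 : ℤ) ∉ B ω ∧ (∃ r ≤ n, LeftEv c (Bm ω) 0 r) ∧
            (∃ r ≤ n, RightEv c (Bp ω) 0 r)} \ N n)) := by
        intro ω hω
        by_cases h1 : (0 : ℤ) ∈ B ω
        · exact Or.inl h1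
        · by_cases h2 : ω ∈ N n
          · exact Or.inr (Or.inl h2)
          · obtain ⟨r, hr1, hr2⟩ := exists_leftEv hc h1 hω
            obtain ⟨s, hs1, hs2⟩ := exists_rightEv hc h1 hω
            refine Or.inr (Or.inr ⟨⟨h1, ⟨r, hr1, ?_⟩, ⟨s, hs1, ?_⟩⟩, h2⟩)
            · refine (leftEv_congr fun i hi1 hi2 => ?_).1 hr2
              exact ⟨fun h => hm n ω h2 h1 i (by omega) hi2 h, fun h => hBm ω h⟩
            · refine (rightEv_congr fun i hi1 hi2 => ?_).1 hs2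
              exact ⟨fun h => hp n ω h2 h1 i (by omega) (by omega) h, fun h => hBp ω h⟩
      have h3 := measureReal_mono (μ := μ) hsub
      have h4 := h3.trans ((measureReal_union_le _ _).trans
        (add_le_add le_rfl (measureReal_union_le _ _)))
      have h5 := hdec n
      have h6 := hF n
      have h7 : C * μ.real {ω | ∃ r ≤ n, LeftEv c (Bm ω) 0 r} *
          μ.real {ω | ∃ r ≤ n, RightEv c (Bp ω) 0 r} ≤ C * (2 * F / θ) * (2 * F / θ) := by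
        refine mul_le_mul (mul_le_mul_of_nonneg_left hL3 hC) hR3 measureReal_nonneg ?_
        positivity
      have h8 : C * (2 * F / θ) * (2 * F / θ) ≤ F := by
        have e : C * (2 * F / θ) * (2 * F / θ) = (4 * F * C * ((1 + c) ^ 2 / c ^ 3) ^ 2) * F := by
          rw [hθdef]
          field_simp
          ring
        rw [e]
        nlinarith
      linarith

/-- **The recursion theorem at all scales, general form.** -/
theorem closure_bound_gen_inf (hT : ∀ i, MeasurePreserving (T i) μ μ)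
    {B Bm Bp : Ω → Set ℤ} (hB : Equi T B) (hBm : ∀ ω, Bm ω ⊆ B ω) (hBp : ∀ ω, Bp ω ⊆ B ω)
    {c C F : ℝ} (hc : 0 < c) (hC : 0 ≤ C) (N : ℕ → Set Ω)
    (hm : ∀ n ω, ω ∉ N n → (0 : ℤ) ∉ B ω → ∀ i : ℤ, -n ≤ i → i < 0 → i ∈ B ω → i ∈ Bm ω)
    (hp : ∀ n ω, ω ∉ N n → (0 : ℤ) ∉ B ω → ∀ i : ℤ, 0 < i → i ≤ n → i ∈ B ω → i ∈ Bp ω)
    (hdec : ∀ n : ℕ, μ.real ({ω | (0 : ℤ) ∉ B ω ∧ (∃ r ≤ n, LeftEv c (Bm ω) 0 r) ∧
        (∃ r ≤ n, RightEv c (Bp ω) 0 r)} \ N n) ≤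
      C * μ.real {ω | ∃ r ≤ n, LeftEv c (Bm ω) 0 r} *
        μ.real {ω | ∃ r ≤ n, RightEv c (Bp ω) 0 r})
    (hF : ∀ n, μ.real {ω | (0 : ℤ) ∈ B ω} + μ.real (N n) ≤ F)
    (hCF : 4 * F * C * ((1 + c) ^ 2 / c ^ 3) ^ 2 ≤ 1) :
    μ.real {ω | (0 : ℤ) ∈ ClInf c (B ω)} ≤ 2 * F := by
  have h1 := closure_bound_gen hT hB hBm hBp hc hC N hm hp hdec hF hCF
  have h2 : {ω | (0 : ℤ) ∈ ClInf c (B ω)} = ⋃ n, {ω | (0 : ℤ) ∈ Cl c n (B ω)} := by
    ext ω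
    simp only [ClInf, mem_iUnion, mem_ofPred_eq]
  have hmono : Monotone fun n => {ω | (0 : ℤ) ∈ Cl c n (B ω)} := by
    intro n m hnm ω hω
    exact Cl_mono_n hnm hω
  rw [h2]
  have h3 := tendsto_measure_iUnion_atTop (μ := μ) hmono
  have h4 : Filter.Tendsto (fun n => μ.real {ω | (0 : ℤ) ∈ Cl c n (B ω)}) Filter.atTop
      (nhds (μ.real (⋃ n, {ω | (0 : ℤ) ∈ Cl c n (B ω)}))) :=
    (ENNReal.tendsto_toReal (measure_ne_top μ _)).comp h3
  exact le_of_tendsto' h4 h1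

end P108C
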