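import Vale.Agent.P108.Cmb.Rec
import Mathlib.Topology.Algebra.InfiniteSum.ENNReal

/-!
# P108: zones of an equivariant family of defects

`P ω o j` : at the site `o` there is a defect of scale `j` (radius `R j`).  The bad set is the union
of the zones `[o - Z R_j, o + Z R_j]`.
-/

open Set MeasureTheory
open scoped Classical ENNReal

namespace P108C

/-- union of the zones of radius `Z * R j` around the defects -/
def zone (Z : ℕ) (R : ℕ → ℕ) (P : ℤ → ℕ → Prop) : Set ℤ :=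
  {i | ∃ o j, P o j ∧ o - Z * R j ≤ i ∧ i ≤ o + Z * R j}

/-- zones of the defects far on the left of `0` -/
def zoneL (Z1 Z2 : ℕ) (R : ℕ → ℕ) (P : ℤ → ℕ → Prop) : Set ℤ :=
  {i | ∃ o j, P o j ∧ o + Z2 * R j < 0 ∧ o - Z1 * R j ≤ i ∧ i ≤ o + Z1 * R j}

/-- zones of the defects far on the right of `0` -/
def zoneR (Z1 Z2 : ℕ) (R : ℕ → ℕ) (P : ℤ → ℕ → Prop) : Set ℤ :=
  {i | ∃ o j, P o j ∧ 0 < o - Z2 * R j ∧ o - Z1 * R j ≤ i ∧ i ≤ o + Z1 * R j}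

variable {Z Z1 Z2 : ℕ} {R : ℕ → ℕ} {P : ℤ → ℕ → Prop}

theorem zoneL_subset : zoneL Z1 Z2 R P ⊆ zone Z1 R P := by
  rintro i ⟨o, j, h1, -, h2⟩
  exact ⟨o, j, h1, h2⟩

theorem zoneR_subset : zoneR Z1 Z2 R P ⊆ zone Z1 R P := by
  rintro i ⟨o, j, h1, -, h2⟩
  exact ⟨o, j, h1, h2⟩

theorem zone_mono (h : Z1 ≤ Z2) : zone Z1 R P ⊆ zone Z2 R P := by
  rintro i ⟨o, j, h1, h2, h3⟩
  have h4 : (Z1 : ℤ) * R j ≤ Z2 * R j := by
    exact_mod_cast Nat.mul_le_mul_right _ h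
  exact ⟨o, j, h1, by linarith, by linarith⟩

theorem zone_mono_P {P' : ℤ → ℕ → Prop} (h : ∀ o j, P o j → P' o j) :
    zone Z R P ⊆ zone Z R P' := by
  rintro i ⟨o, j, h1, h2⟩
  exact ⟨o, j, h o j h1, h2⟩

/-- outside the big zones the left part of the bad set is computed from far left defects -/
theorem mem_zoneL (hZ : Z1 ≤ Z2) (h0 : (0 : ℤ) ∉ zone Z2 R P) {i : ℤ} (hi : i < 0)
    (h : i ∈ zone Z1 R P) : i ∈ zoneL Z1 Z2 R P := by
  obtain ⟨o, j, h1, h2, h3⟩ := h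
  have h4 : (Z1 : ℤ) * R j ≤ Z2 * R j := by
    exact_mod_cast Nat.mul_le_mul_right _ hZ
  refine ⟨o, j, h1, ?_, h2, h3⟩
  by_contra h5
  exact h0 ⟨o, j, h1, by linarith, by linarith⟩

theorem mem_zoneR (hZ : Z1 ≤ Z2) (h0 : (0 : ℤ) ∉ zone Z2 R P) {i : ℤ} (hi : 0 < i)
    (h : i ∈ zone Z1 R P) : i ∈ zoneR Z1 Z2 R P := by
  obtain ⟨o, j, h1, h2, h3⟩ := h
  have h4 : (Z1 : ℤ) * R j ≤ Z2 * R j := by
    exact_mod_cast Nat.mul_le_mul_right _ hZ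
  refine ⟨o, j, h1, ?_, h2, h3⟩
  by_contra h5
  exact h0 ⟨o, j, h1, by linarith, by linarith⟩

variable {Ω : Type*} [MeasurableSpace Ω] {μ : Measure Ω} {T : ℤ → Ω → Ω}

/-- equivariant measurable family of defects -/
structure EquiP (T : ℤ → Ω → Ω) (P : Ω → ℤ → ℕ → Prop) : Prop where
  shift : ∀ i ω o j, P (T i ω) o j ↔ P ω (o + i) j
  meas : ∀ o j, MeasurableSet {ω | P ω o j}

theorem EquiP.or {P Q : Ω → ℤ → ℕ → Prop} (hP : EquiP T P) (hQ : EquiP T Q) :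
    EquiP T (fun ω o j => P ω o j ∨ Q ω o j) where
  shift i ω o j := by rw [hP.shift, hQ.shift]
  meas o j := (hP.meas o j).union (hQ.meas o j)

theorem EquiP.zone {P : Ω → ℤ → ℕ → Prop} (h : EquiP T P) (Z : ℕ) (R : ℕ → ℕ) :
    Equi T (fun ω => zone Z R (P ω)) where
  shift i ω := by
    ext t
    simp only [P108C.zone, mem_ofPred_eq, mem_preimage]
    constructor
    · rintro ⟨o, j, h1, h2, h3⟩
      exact ⟨o + i, j, (h.shift i ω o j).1 h1, by omega, by omega⟩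
    · rintro ⟨o, j, h1, h2, h3⟩
      refine ⟨o - i, j, (h.shift i ω (o - i) j).2 ?_, by omega, by omega⟩
      rwa [sub_add_cancel]
  meas i := by
    have h1 : {ω | i ∈ P108C.zone Z R (P ω)} = ⋃ o : ℤ, ⋃ j : ℕ,
        ({ω | P ω o j} ∩ {_ω : Ω | o - Z * R j ≤ i ∧ i ≤ o + Z * R j}) := by
      ext ω
      simp only [P108C.zone, mem_ofPred_eq, mem_iUnion, mem_inter_iff]
    rw [h1]
    exact MeasurableSet.iUnion fun o => MeasurableSet.iUnion fun j =>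
      (h.meas o j).inter (MeasurableSet.const _)

theorem EquiP.meas_zoneL {P : Ω → ℤ → ℕ → Prop} (h : EquiP T P) (Z1 Z2 : ℕ) (R : ℕ → ℕ) (i : ℤ) :
    MeasurableSet {ω | i ∈ zoneL Z1 Z2 R (P ω)} := by
  have h1 : {ω | i ∈ zoneL Z1 Z2 R (P ω)} = ⋃ o : ℤ, ⋃ j : ℕ,
      ({ω | P ω o j} ∩
        {_ω : Ω | o + Z2 * R j < 0 ∧ o - Z1 * R j ≤ i ∧ i ≤ o + Z1 * R j}) := by
    ext ω
    simp only [zoneL, mem_ofPred_eq, mem_iUnion, mem_inter_iff]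
  rw [h1]
  exact MeasurableSet.iUnion fun o => MeasurableSet.iUnion fun j =>
    (h.meas o j).inter (MeasurableSet.const _)

theorem EquiP.meas_zoneR {P : Ω → ℤ → ℕ → Prop} (h : EquiP T P) (Z1 Z2 : ℕ) (R : ℕ → ℕ) (i : ℤ) :
    MeasurableSet {ω | i ∈ zoneR Z1 Z2 R (P ω)} := by
  have h1 : {ω | i ∈ zoneR Z1 Z2 R (P ω)} = ⋃ o : ℤ, ⋃ j : ℕ,
      ({ω | P ω o j} ∩
        {_ω : Ω | 0 < o - Z2 * R j ∧ o - Z1 * R j ≤ i ∧ i ≤ o + Z1 * R j}) := by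
    ext ω
    simp only [zoneR, mem_ofPred_eq, mem_iUnion, mem_inter_iff]
  rw [h1]
  exact MeasurableSet.iUnion fun o => MeasurableSet.iUnion fun j =>
    (h.meas o j).inter (MeasurableSet.const _)

theorem EquiP.measure_eq (hT : ∀ i, MeasurePreserving (T i) μ μ) {P : Ω → ℤ → ℕ → Prop}
    (h : EquiP T P) (o : ℤ) (j : ℕ) : μ {ω | P ω o j} = μ {ω | P ω 0 j} := by
  have h1 : {ω | P ω o j} = T o ⁻¹' {ω | P ω 0 j} := by
    ext ω
    simp only [mem_ofPred_eq, mem_preimage, h.shift, zero_add]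
  rw [h1, (hT o).measure_preimage (h.meas 0 j).nullMeasurableSet]

/-- **Mass of the zones.** -/
theorem EquiP.measure_zone_le (hT : ∀ i, MeasurePreserving (T i) μ μ) {P : Ω → ℤ → ℕ → Prop}
    (h : EquiP T P) (Z : ℕ) (R : ℕ → ℕ) :
    μ {ω | (0 : ℤ) ∈ P108C.zone Z R (P ω)} ≤
      ∑' j : ℕ, ((2 * Z * R j + 1 : ℕ) : ℝ≥0∞) * μ {ω | P ω 0 j} := by
  have h1 : {ω | (0 : ℤ) ∈ P108C.zone Z R (P ω)} ⊆ ⋃ j : ℕ,
      ⋃ o ∈ Finset.Icc (-(Z * R j : ℤ)) (Z * R j), {ω | P ω o j} := by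
    rintro ω ⟨o, j, h1, h2, h3⟩
    refine mem_iUnion.2 ⟨j, mem_iUnion₂.2 ⟨o, ?_, h1⟩⟩
    rw [Finset.mem_Icc]
    exact ⟨by linarith, by linarith⟩
  refine (measure_mono h1).trans ((measure_iUnion_le _).trans (ENNReal.tsum_le_tsum fun j => ?_))
  refine (measure_biUnion_finset_le _ _).trans ?_
  rw [Finset.sum_congr rfl fun o _ => h.measure_eq hT o j, Finset.sum_const, Int.card_Icc,
    nsmul_eq_mul]
  refine mul_le_mul_left ?_ _
  have e : ((Z * R j : ℤ) + 1 - -(Z * R j : ℤ)).toNat = 2 * Z * R j + 1 := by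
    have : (Z * R j : ℤ) + 1 - -(Z * R j : ℤ) = ((2 * Z * R j + 1 : ℕ) : ℤ) := by
      push_cast; ring
    rw [this, Int.toNat_natCast]
  rw [e]

/-! ### maximal function over all scales, and dense windows -/

variable [IsProbabilityMeasure μ]

theorem dl_mono {θ : ℝ} {N M : ℕ} (h : N ≤ M) (S : Set ℤ) : dl θ N S ⊆ dl θ M S := by
  rintro b ⟨r, h1, h2, h3⟩
  exact ⟨r, h1, h2.trans h, h3⟩

theorem dr_mono {θ : ℝ} {N M : ℕ} (h : N ≤ M) (S : Set ℤ) : dr θ N S ⊆ dr θ M S := by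
  rintro b ⟨r, h1, h2, h3⟩
  exact ⟨r, h1, h2.trans h, h3⟩

/-- points with a dense window (any length) on the left -/
def dlInf (θ : ℝ) (S : Set ℤ) : Set ℤ := {b | ∃ r : ℕ, 1 ≤ r ∧ θ * r ≤ ms S (b - r) b}

/-- points with a dense window (any length) on the right -/
def drInf (θ : ℝ) (S : Set ℤ) : Set ℤ := {b | ∃ r : ℕ, 1 ≤ r ∧ θ * r ≤ ms S (b + 1) (b + 1 + r)}

theorem dlInf_eq (θ : ℝ) (S : Set ℤ) : dlInf θ S = ⋃ N, dl θ N S := by
  ext b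
  simp only [dlInf, dl, mem_ofPred_eq, mem_iUnion]
  constructor
  · rintro ⟨r, h1, h2⟩; exact ⟨r, r, h1, le_rfl, h2⟩
  · rintro ⟨N, r, h1, _, h2⟩; exact ⟨r, h1, h2⟩

theorem drInf_eq (θ : ℝ) (S : Set ℤ) : drInf θ S = ⋃ N, dr θ N S := by
  ext b
  simp only [drInf, dr, mem_ofPred_eq, mem_iUnion]
  constructor
  · rintro ⟨r, h1, h2⟩; exact ⟨r, r, h1, le_rfl, h2⟩
  · rintro ⟨N, r, h1, _, h2⟩; exact ⟨r, h1, h2⟩

theorem Equi.meas_dlInf {S : Ω → Set ℤ} (h : Equi T S) (θ : ℝ) (i : ℤ) :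
    MeasurableSet {ω | i ∈ dlInf θ (S ω)} := by
  simp only [dlInf_eq, mem_iUnion, ofPred_exists]
  exact MeasurableSet.iUnion fun N => (h.dl θ N).meas i

theorem Equi.meas_drInf {S : Ω → Set ℤ} (h : Equi T S) (θ : ℝ) (i : ℤ) :
    MeasurableSet {ω | i ∈ drInf θ (S ω)} := by
  simp only [drInf_eq, mem_iUnion, ofPred_exists]
  exact MeasurableSet.iUnion fun N => (h.dr θ N).meas i

theorem Equi.maximal_left_inf (hT : ∀ i, MeasurePreserving (T i) μ μ) {S : Ω → Set ℤ}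
    (h : Equi T S) {θ : ℝ} (hθ : 0 < θ) :
    θ * μ.real {ω | (0 : ℤ) ∈ dlInf θ (S ω)} ≤ μ.real {ω | (0 : ℤ) ∈ S ω} := by
  have h2 : {ω | (0 : ℤ) ∈ dlInf θ (S ω)} = ⋃ n, {ω | (0 : ℤ) ∈ P108C.dl θ n (S ω)} := by
    ext ω
    simp only [dlInf_eq, mem_iUnion, mem_ofPred_eq]
  have hmono : Monotone fun n => {ω | (0 : ℤ) ∈ P108C.dl θ n (S ω)} :=
    fun n m hnm ω hω => dl_mono hnm _ hω
  rw [h2]
  have h4 : Filter.Tendsto (fun n => θ * μ.real {ω | (0 : ℤ) ∈ P108C.dl θ n (S ω)}) Filter.atTop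
      (nhds (θ * μ.real (⋃ n, {ω | (0 : ℤ) ∈ P108C.dl θ n (S ω)}))) :=
    ((ENNReal.tendsto_toReal (measure_ne_top μ _)).comp
      (tendsto_measure_iUnion_atTop (μ := μ) hmono)).const_mul θ
  exact le_of_tendsto' h4 fun n => h.maximal_left hT hθ n

theorem Equi.maximal_right_inf (hT : ∀ i, MeasurePreserving (T i) μ μ) {S : Ω → Set ℤ}
    (h : Equi T S) {θ : ℝ} (hθ : 0 < θ) :
    θ * μ.real {ω | (0 : ℤ) ∈ drInf θ (S ω)} ≤ μ.real {ω | (0 : ℤ) ∈ S ω} := by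
  have h2 : {ω | (0 : ℤ) ∈ drInf θ (S ω)} = ⋃ n, {ω | (0 : ℤ) ∈ P108C.dr θ n (S ω)} := by
    ext ω
    simp only [drInf_eq, mem_iUnion, mem_ofPred_eq]
  have hmono : Monotone fun n => {ω | (0 : ℤ) ∈ P108C.dr θ n (S ω)} :=
    fun n m hnm ω hω => dr_mono hnm _ hω
  rw [h2]
  have h4 : Filter.Tendsto (fun n => θ * μ.real {ω | (0 : ℤ) ∈ P108C.dr θ n (S ω)}) Filter.atTop
      (nhds (θ * μ.real (⋃ n, {ω | (0 : ℤ) ∈ P108C.dr θ n (S ω)}))) :=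
    ((ENNReal.tendsto_toReal (measure_ne_top μ _)).comp
      (tendsto_measure_iUnion_atTop (μ := μ) hmono)).const_mul θ
  exact le_of_tendsto' h4 fun n => h.maximal_right hT hθ n

/-- dense windows: the window `[o - R_j, o + R_j]` contains `≥ δ R_j` points of `S` -/
def dense (δ : ℝ) (R : ℕ → ℕ) (S : Set ℤ) (o : ℤ) (j : ℕ) : Prop :=
  δ * R j ≤ ms S (o - R j) (o + R j + 1)

theorem Equi.dense {S : Ω → Set ℤ} (h : Equi T S) (δ : ℝ) (R : ℕ → ℕ) :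
    EquiP T (fun ω o j => dense δ R (S ω) o j) where
  shift i ω o j := by
    simp only [P108C.dense, h.shift, ms_shift]
    have e1 : o - (R j : ℤ) + i = o + i - R j := by ring
    have e2 : o + (R j : ℤ) + 1 + i = o + i + R j + 1 := by ring
    rw [e1, e2]
  meas o j := meas_ms_ge h.meas _ _ _

/-- **Mass of the zones of dense windows.** -/
theorem Equi.measure_zone_dense_le (hT : ∀ i, MeasurePreserving (T i) μ μ) {S : Ω → Set ℤ}
    (h : Equi T S) {δ : ℝ} (hδ : 0 < δ) (Z : ℕ) {R : ℕ → ℕ} (hR : ∀ j, 1 ≤ R j) :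
    μ.real {ω | (0 : ℤ) ∈ P108C.zone Z R (P108C.dense δ R (S ω))} ≤
      (1 + 4 * (Z + 1) / δ) * μ.real {ω | (0 : ℤ) ∈ S ω} := by
  set θ : ℝ := δ / (2 * (Z + 1)) with hθd
  have hθ : 0 < θ := by positivity
  have hsub : {ω | (0 : ℤ) ∈ P108C.zone Z R (P108C.dense δ R (S ω))} ⊆
      {ω | (0 : ℤ) ∈ S ω} ∪ ({ω | (0 : ℤ) ∈ dlInf θ (S ω)} ∪ {ω | (0 : ℤ) ∈ drInf θ (S ω)}) := by
    rintro ω ⟨o, j, h1, h2, h3⟩
    by_cases h0 : (0 : ℤ) ∈ S ω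
    · exact Or.inl h0
    right
    have hRj := hR j
    set W : ℕ := (Z + 1) * R j with hW
    have hW1 : (W : ℤ) = Z * R j + R j := by rw [hW]; push_cast; ring
    have hW2 : 1 ≤ W := by
      have : 1 * 1 ≤ (Z + 1) * R j := Nat.mul_le_mul (by omega) hRj
      omega
    have h4 : ms (S ω) (o - R j) (o + R j + 1) ≤ ms (S ω) (-W) (1 + W) := by
      refine ms_mono' ?_ ?_
      · rw [hW1]; linarith
      · rw [hW1]; linarith
    have h5 : ms (S ω) (-W) (1 + W) = ms (S ω) (-W) 0 + ms (S ω) 0 1 + ms (S ω) 1 (1 + W) := by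
      rw [← ms_add (X := S ω) (by omega : (-W : ℤ) ≤ 0) (by omega : (0 : ℤ) ≤ 1),
        ← ms_add (X := S ω) (by omega : (-W : ℤ) ≤ 1) (by omega : (1 : ℤ) ≤ 1 + W)]
    have h6 : ms (S ω) 0 1 = 0 := ms_eq_zero fun i h7 h8 h9 => by
      have : i = 0 := by omega
      exact h0 (this ▸ h9)
    have h7 : δ * R j ≤ ms (S ω) (-W) 0 + ms (S ω) 1 (1 + W) := by
      have : (ms (S ω) (o - R j) (o + R j + 1) : ℝ) ≤
          ms (S ω) (-W) 0 + ms (S ω) 1 (1 + W) := by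
        rw [h5, h6] at h4
        exact_mod_cast h4
      exact h1.trans this
    have h8 : θ * W = δ * R j / 2 := by
      rw [hθd, hW]
      push_cast
      field_simp
    rcases le_or_gt (θ * W) (ms (S ω) (-W) 0 : ℝ) with h9 | h9
    · left
      exact ⟨W, hW2, by rw [zero_sub]; exact h9⟩
    · right
      refine ⟨W, hW2, ?_⟩
      rw [zero_add]
      linarith
  have h1 := measureReal_mono (μ := μ) hsub
  have h2 := h1.trans ((measureReal_union_le _ _).trans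
    (add_le_add le_rfl (measureReal_union_le _ _)))
  have h3 := h.maximal_left_inf (μ := μ) hT hθ
  have h4 := h.maximal_right_inf (μ := μ) hT hθ
  set m := μ.real {ω | (0 : ℤ) ∈ S ω} with hm
  have h5 : μ.real {ω | (0 : ℤ) ∈ dlInf θ (S ω)} ≤ m / θ := by
    rw [le_div_iff₀ hθ]; linarith
  have h6 : μ.real {ω | (0 : ℤ) ∈ drInf θ (S ω)} ≤ m / θ := by
    rw [le_div_iff₀ hθ]; linarith
  have h7 : m / θ = 2 * (Z + 1) / δ * m := by
    rw [hθd]; field_simp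
  rw [h7] at h5 h6
  have h8 : (1 + 4 * (Z + 1) / δ) * m = m + 2 * (2 * (Z + 1) / δ * m) := by ring
  rw [h8]
  linarith

end P108C
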