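import Vale.Agent.P108.Cmb.Comp
import Vale.Agent.P108.Cmb.Pat
import Vale.Agent.P108.Cmb.Zones

/-!
# P108: every run of a closure contains a basic point; patterns of closures are made of long zones
-/

open Set
open scoped Classical

namespace P108C

variable {c : ℝ} {n m : ℕ} {X Y B I : Set ℤ} {a b : ℤ}

/-- `i` and `j` are in the same run of `X` -/
def Conn (X : Set ℤ) (i j : ℤ) : Prop := ∀ t, min i j ≤ t → t ≤ max i j → t ∈ X

theorem Conn.trans {i j l : ℤ} (h1 : Conn X i j) (h2 : Conn X j l) : Conn X i l := by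
  intro t h3 h4
  by_cases h5 : min i j ≤ t ∧ t ≤ max i j
  · exact h1 t h5.1 h5.2
  · exact h2 t (by omega) (by omega)

theorem Conn.symm {i j : ℤ} (h1 : Conn X i j) : Conn X j i :=
  fun t h3 h4 => h1 t (by omega) (by omega)

theorem Conn.refl {i : ℤ} (h : i ∈ X) : Conn X i i := fun t h1 h2 => by
  have : t = i := by omega
  rw [this]; exact h

theorem Conn.left {i j : ℤ} (h : Conn X i j) : i ∈ X := h i (by omega) (by omega)

theorem Conn.right {i j : ℤ} (h : Conn X i j) : j ∈ X := h j (by omega) (by omega)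

/-- removing a whole run (maximal on the left and on the right) keeps the set closed -/
theorem NClosed.remove_run (hc : 0 < c) (hX : NClosed c n X) (K : Set ℤ)
    (hK : ∀ i ∈ K, ∀ j, Conn X i j → j ∈ K) :
    NClosed c n (X \ K) := by
  intro d hd h₁ h₂ h3 h4 hn hh
  by_cases hdX : d ∈ X
  · have hdK : d ∈ K := by
      by_contra h
      exact hd ⟨hdX, h⟩
    -- look for a point of the complement of `X` between `d` and the left mass
    have hpos := pos_of_window hc h3 h4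
    obtain ⟨i, hi1, hi2, hi3⟩ : ∃ i, h₁ ≤ i ∧ i < d ∧ i ∈ X \ K := by
      by_contra hno
      push Not at hno
      have : ms (X \ K) h₁ d = 0 := ms_eq_zero fun i h5 h6 h7 => hno i h5 h6 h7
      have h8 := hh.1
      rw [this] at h8
      push_cast at h8 hpos
      linarith
    -- the last complement point of X in `[i, d)`
    have hex : ∃ e, i < e ∧ e < d ∧ e ∉ X ∧ ∀ t, e < t → t ≤ d → t ∈ X := by
      have h5 : ((Finset.Ioo i d).filter (fun e => e ∉ X)).Nonempty := by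
        by_contra hne
        rw [Finset.not_nonempty_iff_eq_empty] at hne
        have h6 : ∀ t, i ≤ t → t ≤ d → t ∈ X := by
          intro t h7 h8
          rcases eq_or_lt_of_le h7 with h9 | h9
          · rw [← h9]; exact hi3.1
          rcases eq_or_lt_of_le h8 with h10 | h10
          · rw [h10]; exact hdX
          by_contra h11
          have : t ∈ (Finset.Ioo i d).filter (fun e => e ∉ X) :=
            Finset.mem_filter.2 ⟨Finset.mem_Ioo.2 ⟨h9, h10⟩, h11⟩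
          rw [hne] at this
          exact absurd this (Finset.notMem_empty t)
        refine hi3.2 (hK d hdK i fun t h7 h8 => ?_)
        rw [min_eq_right hi2.le] at h7
        rw [max_eq_left hi2.le] at h8
        exact h6 t h7 h8
      set e := ((Finset.Ioo i d).filter (fun e => e ∉ X)).max' h5 with he
      have h6 := Finset.max'_mem _ h5
      rw [← he, Finset.mem_filter, Finset.mem_Ioo] at h6
      refine ⟨e, h6.1.1, h6.1.2, h6.2, fun t h7 h8 => ?_⟩
      rcases eq_or_lt_of_le h8 with h10 | h10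
      · rw [h10]; exact hdX
      by_contra h11
      have h12 := Finset.le_max' ((Finset.Ioo i d).filter (fun e => e ∉ X)) t
        (Finset.mem_filter.2 ⟨Finset.mem_Ioo.2 ⟨by omega, h10⟩, h11⟩)
      rw [← he] at h12
      omega
    obtain ⟨e, he1, he2, he3, he4⟩ := hex
    have hKe : ∀ t, e < t → t ≤ d → t ∈ K := by
      intro t h5 h6
      refine hK d hdK t fun x h7 h8 => ?_
      rw [min_eq_right h6] at h7
      rw [max_eq_left h6] at h8
      exact he4 x (by omega) h8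
    refine hX e he3 h₁ h₂ (by omega) (by omega) hn ⟨hh.1.trans ?_, hh.2.trans ?_⟩
    · have h5 : ms (X \ K) h₁ d = ms (X \ K) h₁ e + ms (X \ K) e d :=
        ms_add (by omega) (by omega)
      have h6 : ms (X \ K) e d = 0 := ms_eq_zero fun t h7 h8 h9 => by
        rcases eq_or_lt_of_le h7 with h10 | h10
        · exact he3 (h10 ▸ h9.1)
        · exact h9.2 (hKe t h10 h8.le)
      have h7 : ms (X \ K) h₁ e ≤ ms X h₁ e := ms_mono sdiff_subset _ _
      rw [h5, h6, add_zero]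
      exact_mod_cast h7
    · have h5 : ms (X \ K) (d + 1) h₂ ≤ ms X (d + 1) h₂ := ms_mono sdiff_subset _ _
      have h6 : ms X (d + 1) h₂ ≤ ms X (e + 1) h₂ := ms_mono' (by omega) le_rfl
      exact_mod_cast h5.trans h6
  · refine hX d hdX h₁ h₂ h3 h4 hn ⟨hh.1.trans ?_, hh.2.trans ?_⟩
    · exact_mod_cast ms_mono sdiff_subset _ _
    · exact_mod_cast ms_mono sdiff_subset _ _

/-- **every run of the closure contains a basic point** -/
theorem exists_basic (hc : 0 < c) {i : ℤ} (hi : i ∈ Cl c n B) :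
    ∃ j ∈ B, Conn (Cl c n B) i j := by
  by_contra hno
  push Not at hno
  have h1 : NClosed c n (Cl c n B \ {j | Conn (Cl c n B) i j}) :=
    (nclosed_Cl c n B).remove_run hc _ fun x hx y hy => hx.trans hy
  have h2 : Cl c n B ⊆ Cl c n B \ {j | Conn (Cl c n B) i j} :=
    Cl_min (fun j hj => ⟨subset_Cl _ _ _ hj, hno j hj⟩) h1
  exact (h2 hi).2 (Conn.refl hi)

theorem exists_basic_inf (hc : 0 < c) {i : ℤ} (hi : i ∈ ClInf c B) :
    ∃ j ∈ B, Conn (ClInf c B) i j := by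
  obtain ⟨n, hn⟩ := mem_iUnion.1 hi
  obtain ⟨j, hj, h⟩ := exists_basic hc hn
  exact ⟨j, hj, fun t h1 h2 => mem_iUnion.2 ⟨n, h t h1 h2⟩⟩

/-- `X` is, inside `I`, a union of (traces of) intervals of length `s` -/
def Long (s : ℕ) (I X : Set ℤ) : Prop :=
  ∀ i ∈ X, ∃ a : ℤ, a ≤ i ∧ i < a + s ∧ ∀ t, a ≤ t → t < a + s → t ∈ I → t ∈ X

theorem Long.of_conn {s : ℕ} {I X B : Set ℤ} (hBX : B ⊆ X)
    (hconn : ∀ i ∈ X, ∃ j ∈ B, Conn X i j) (hB : Long s I B) : Long s I X := by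
  intro i hi
  obtain ⟨j, hj, hij⟩ := hconn i hi
  obtain ⟨a, h1, h2, h3⟩ := hB j hj
  rcases le_or_gt a i with h4 | h4
  · rcases lt_or_ge i (a + s) with h5 | h5
    · exact ⟨a, h4, h5, fun t h6 h7 h8 => hBX (h3 t h6 h7 h8)⟩
    · refine ⟨i + 1 - s, by omega, by omega, fun t h6 h7 h8 => ?_⟩
      by_cases h9 : t < a + s
      · exact hBX (h3 t (by omega) h9 h8)
      · exact hij t (by omega) (by omega)
  · refine ⟨i, le_rfl, by omega, fun t h6 h7 h8 => ?_⟩
    by_cases h9 : a ≤ t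
    · exact hBX (h3 t h9 (by omega) h8)
    · exact hij t (by omega) (by omega)

/-- the closure (all scales) of a union of long intervals is a union of long intervals -/
theorem Long.clInf {s : ℕ} (hc : 0 < c) (hB : Long s univ B) : Long s univ (ClInf c B) :=
  Long.of_conn (subset_ClInf c B) (fun _ hi => exists_basic_inf hc hi) hB

/-- the closure of the trace on `[a, b)` -/
theorem Long.cl_Ico {s : ℕ} (hc : 0 < c) (hB : Long s (Ico a b) (B ∩ Ico a b)) :
    Long s (Ico a b) (Cl c n (B ∩ Ico a b)) :=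
  Long.of_conn (subset_Cl _ _ _) (fun _ hi => exists_basic hc hi) hB

theorem Long.trace {s : ℕ} (hB : Long s univ B) : Long s (Ico a b) (B ∩ Ico a b) := by
  rintro i ⟨h1, h2⟩
  obtain ⟨l, h3, h4, h5⟩ := hB i h1
  exact ⟨l, h3, h4, fun t h6 h7 h8 => ⟨h5 t h6 h7 (mem_univ _), h8⟩⟩

/-- unions of zones are long -/
theorem long_zone {Z : ℕ} {R : ℕ → ℕ} {P : ℤ → ℕ → Prop} {s : ℕ} (hs1 : 1 ≤ s)
    (hs : ∀ o j, P o j → s ≤ 2 * Z * R j + 1) : Long s univ (zone Z R P) := by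
  rintro i ⟨o, j, h1, h2, h3⟩
  have h4 := hs o j h1
  have h5 : (s : ℤ) ≤ 2 * (Z * R j) + 1 := by
    have : (s : ℤ) ≤ 2 * Z * R j + 1 := by exact_mod_cast h4
    linarith
  obtain ⟨w, hw⟩ : ∃ w : ℤ, w = Z * R j := ⟨_, rfl⟩
  rw [← hw] at h2 h3 h5
  refine ⟨max (o - w) (i - s + 1), by omega, by omega, fun t h6 h7 _ => ⟨o, j, h1, ?_⟩⟩
  rw [← hw]
  omega

theorem long_zoneL {Z1 Z2 : ℕ} {R : ℕ → ℕ} {P : ℤ → ℕ → Prop} {s : ℕ} (hs1 : 1 ≤ s)
    (hs : ∀ o j, P o j → s ≤ 2 * Z1 * R j + 1) : Long s univ (zoneL Z1 Z2 R P) := by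
  rintro i ⟨o, j, h1, h0, h2, h3⟩
  have h4 := hs o j h1
  have h5 : (s : ℤ) ≤ 2 * (Z1 * R j) + 1 := by
    have : (s : ℤ) ≤ 2 * Z1 * R j + 1 := by exact_mod_cast h4
    linarith
  obtain ⟨w, hw⟩ : ∃ w : ℤ, w = Z1 * R j := ⟨_, rfl⟩
  rw [← hw] at h2 h3 h5
  refine ⟨max (o - w) (i - s + 1), by omega, by omega, fun t h6 h7 _ => ⟨o, j, h1, h0, ?_⟩⟩
  rw [← hw]
  omega

theorem long_zoneR {Z1 Z2 : ℕ} {R : ℕ → ℕ} {P : ℤ → ℕ → Prop} {s : ℕ} (hs1 : 1 ≤ s)
    (hs : ∀ o j, P o j → s ≤ 2 * Z1 * R j + 1) : Long s univ (zoneR Z1 Z2 R P) := by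
  rintro i ⟨o, j, h1, h0, h2, h3⟩
  have h4 := hs o j h1
  have h5 : (s : ℤ) ≤ 2 * (Z1 * R j) + 1 := by
    have : (s : ℤ) ≤ 2 * Z1 * R j + 1 := by exact_mod_cast h4
    linarith
  obtain ⟨w, hw⟩ : ∃ w : ℤ, w = Z1 * R j := ⟨_, rfl⟩
  rw [← hw] at h2 h3 h5
  refine ⟨max (o - w) (i - s + 1), by omega, by omega, fun t h6 h7 _ => ⟨o, j, h1, h0, ?_⟩⟩
  rw [← hw]
  omega

/-- traces of long sets on windows are patterns -/
theorem Long.longZones {s : ℕ} (hX : Long s I X) {u w : ℤ} (hI : Ico u w ⊆ I) :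
    LongZones s u w ((Finset.Ico u w).filter (fun i => i ∈ X)) := by
  refine ⟨Finset.filter_subset _ _, fun i hi => ?_⟩
  rw [Finset.mem_filter, Finset.mem_Ico] at hi
  obtain ⟨a, h1, h2, h3⟩ := hX i hi.2
  refine ⟨a, h1, h2, fun t h4 h5 h6 h7 => ?_⟩
  rw [Finset.mem_filter, Finset.mem_Ico]
  exact ⟨⟨h6, h7⟩, h3 t h4 h5 (hI ⟨h6, h7⟩)⟩

/-! ### windows with good ends, cut at the longest run -/

/-- good left end: all prefixes of `[u, w)` are `θ`-sparse -/
def GoodL (θ : ℝ) (X : Set ℤ) (u w : ℤ) : Prop :=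
  ∀ y : ℕ, 1 ≤ y → u + y ≤ w → (ms X u (u + y) : ℝ) < θ * y

/-- good right end: all suffixes of `[u, w)` are `θ`-sparse -/
def GoodR (θ : ℝ) (X : Set ℤ) (u w : ℤ) : Prop :=
  ∀ y : ℕ, 1 ≤ y → u ≤ w - y → (ms X (w - y) w : ℝ) < θ * y

theorem GoodL.sub {θ : ℝ} {u w w' : ℤ} (h : GoodL θ X u w) (hw : w' ≤ w) : GoodL θ X u w' :=
  fun y h1 h2 => h y h1 (h2.trans hw)

theorem GoodR.sub {θ : ℝ} {u u' w : ℤ} (h : GoodR θ X u w) (hu : u ≤ u') : GoodR θ X u' w :=
  fun y h1 h2 => h y h1 (hu.trans h2)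

theorem GoodL.notMem {θ : ℝ} {u w : ℤ} (h : GoodL θ X u w) (hθ : θ ≤ 1) (huw : u < w) :
    u ∉ X := by
  intro hu
  have h1 := h 1 le_rfl (by push_cast; omega)
  rw [Nat.cast_one, ms_single hu] at h1
  push_cast at h1
  linarith

theorem GoodR.notMem {θ : ℝ} {u w : ℤ} (h : GoodR θ X u w) (hθ : θ ≤ 1) (huw : u < w) :
    w - 1 ∉ X := by
  intro hw
  have h1 := h 1 le_rfl (by push_cast; omega)
  have h2 := ms_single hw
  rw [sub_add_cancel] at h2
  rw [Nat.cast_one, h2] at h1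
  push_cast at h1
  linarith

/-- **Cutting a window with good ends at its longest run.** -/
theorem cut_longest {θ : ℝ} (hc : 0 < c) (hcθ : 4 * c ≤ θ) (hθ : θ ≤ 1)
    (hX : ∀ n, NClosed c n X) {u w p q : ℤ} (hL : GoodL θ X u w) (hR : GoodR θ X u w)
    (hup : u ≤ p) (hpq : p < q) (hqw : q ≤ w) (hrun : ∀ i, p ≤ i → i < q → i ∈ X)
    (hmax : ∀ p' q' : ℤ, u ≤ p' → q' ≤ w → (∀ i, p' ≤ i → i < q' → i ∈ X) → q' - p' ≤ q - p) :
    (u < p ∧ q < w ∧ p - 1 ∉ X ∧ q ∉ X) ∧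
    ((q - p : ℤ) : ℝ) < θ * ((q - u : ℤ) : ℝ) ∧ ((q - p : ℤ) : ℝ) < θ * ((w - p : ℤ) : ℝ) ∧
    GoodL θ X u p ∧ GoodR θ X u p ∧ GoodL θ X q w ∧ GoodR θ X q w := by
  have huX := hL.notMem hθ (by omega)
  have hwX := hR.notMem hθ (by omega)
  have h1 : u < p := by
    rcases eq_or_lt_of_le hup with h | h
    · exact absurd (h ▸ hrun p le_rfl hpq) huX
    · exact h
  have h2 : q < w := by
    rcases eq_or_lt_of_le hqw with h | h
    · exact absurd (h ▸ hrun (q - 1) (by omega) (by omega)) hwX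
    · exact h
  obtain ⟨h3, h4⟩ := max_run_ends hup hpq hqw hrun hmax
  have hK : (ms X p q : ℤ) = q - p := ms_eq_length hpq.le hrun
  refine ⟨⟨h1, h2, h3 h1, h4 h2⟩, ?_, ?_, hL.sub (by omega), ?_, ?_, hR.sub (by omega)⟩
  · have h5 := hL (q - u).toNat (by omega) (by omega)
    have e1 : u + ((q - u).toNat : ℤ) = q := by omega
    have e2 : (((q - u).toNat : ℕ) : ℝ) = ((q - u : ℤ) : ℝ) := by
      have : (((q - u).toNat : ℕ) : ℤ) = q - u := by omega
      exact_mod_cast this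
    rw [e1, e2] at h5
    refine lt_of_le_of_lt ?_ h5
    have h6 : (q - p : ℤ) ≤ ms X u q := by
      rw [← hK]; exact_mod_cast ms_mono' hup le_rfl
    exact_mod_cast h6
  · have h5 := hR (w - p).toNat (by omega) (by omega)
    have e1 : w - ((w - p).toNat : ℤ) = p := by omega
    have e2 : (((w - p).toNat : ℕ) : ℝ) = ((w - p : ℤ) : ℝ) := by
      have : (((w - p).toNat : ℕ) : ℤ) = w - p := by omega
      exact_mod_cast this
    rw [e1, e2] at h5
    refine lt_of_le_of_lt ?_ h5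
    have h6 : (q - p : ℤ) ≤ ms X p w := by
      rw [← hK]; exact_mod_cast ms_mono' le_rfl hqw
    exact_mod_cast h6
  · intro y hy1 hy2
    have h5 := sparse_left_of_max hc (by linarith) hX hpq hqw hrun hmax hy1 hy2
    have h6 : (4 * c * y : ℝ) ≤ θ * y := mul_le_mul_of_nonneg_right hcθ (by positivity)
    linarith
  · intro y hy1 hy2
    have h5 := sparse_right_of_max hc (by linarith) hX hup hpq hrun hmax hy1 hy2
    have h6 : (4 * c * y : ℝ) ≤ θ * y := mul_le_mul_of_nonneg_right hcθ (by positivity)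
    linarith

end P108C
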